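import Crest.Agent.N207.Rad.Sz

/-!
# Row 207, block P0 (helper89): local radial functions, their weights and differences
-/

set_option autoImplicit false
set_option linter.dupNamespace false
set_option linter.unusedSectionVars false
open Set MeasureTheory Filter Topology
open scoped ContDiff

noncomputable section

namespace Crest.Agent.N207.Rad

variable {M : Type*} [TopologicalSpace M] [CompactSpace M] [MeasurableSpace M] {H : HC M}

/-- `β` is a radial function at the scale `r` around `z`, at the time `t` -/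
structure LocAt (H : HC M) (t : ℝ) (z : M) (η r : ℝ) (β : M → ℝ) : Prop where
  s0 : H.S0 β
  inn : ∀ x, H.d t z x ≤ r / 4 → β x ≤ r ^ 2 / 8
  out : ∀ x, 4 * r ≤ H.d t z x → 8 * r ^ 2 ≤ β x
  mid : ∀ x, r / 4 ≤ H.d t z x → H.d t z x ≤ 4 * r → |β x - H.d t z x ^ 2| ≤ η * r ^ 2 ∧
    |H.gam t β β x - 4 * β x| ≤ η * r ^ 2 ∧ |H.lap t β x - 8| ≤ η ∧ |H.hh t β x - 16| ≤ η

/-- `|Hess u - Hess v|² ≤ 2 |Hess u - 2 g|² + 2 |Hess v - 2 g|²` -/
def HhSub (H : HC M) : Prop :=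
  ∀ t ∈ Ioo 0 H.T, ∀ u v : M → ℝ, H.S0 u → H.S0 v → ∀ x, H.hh t (fun y => u y - v y) x ≤
    2 * (H.hh t u x - 4 * H.lap t u x + 16) + 2 * (H.hh t v x - 4 * H.lap t v x + 16)

/-- the upper cut -/
def cU (top : Prop) [Decidable top] (s : ℝ) : ℝ := if top then 1 else E.zeta (s / 2)

/-- the lower cut -/
def cL (bot : Prop) [Decidable bot] (s : ℝ) : ℝ := if bot then 1 else 1 - E.zeta (5 * s)

/-- the weight profile -/
def cW (top bot : Prop) [Decidable top] [Decidable bot] (s : ℝ) : ℝ := cU top s * cL bot s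

section prof
variable (top bot : Prop) [Decidable top] [Decidable bot]

theorem cU_cd : ContDiff ℝ ∞ (cU top) := by
  unfold cU; split_ifs
  · exact contDiff_const
  · exact E.zeta_cd.comp (by fun_prop)

theorem cL_cd : ContDiff ℝ ∞ (cL bot) := by
  unfold cL; split_ifs
  · exact contDiff_const
  · exact contDiff_const.sub (E.zeta_cd.comp (by fun_prop))

theorem cW_cd : ContDiff ℝ ∞ (cW top bot) := (cU_cd top).mul (cL_cd bot)

theorem cU_mem (s : ℝ) : cU top s ∈ Icc (0 : ℝ) 1 := by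
  unfold cU; split_ifs
  · simp
  · exact ⟨E.zeta_nonneg _, E.zeta_le_one _⟩

theorem cL_mem (s : ℝ) : cL bot s ∈ Icc (0 : ℝ) 1 := by
  unfold cL; split_ifs
  · simp
  · exact ⟨by linarith [E.zeta_le_one (5 * s)], by linarith [E.zeta_nonneg (5 * s)]⟩

theorem cW_nonneg (s : ℝ) : 0 ≤ cW top bot s := mul_nonneg (cU_mem top s).1 (cL_mem bot s).1

theorem cW_le (s : ℝ) : cW top bot s ≤ 1 :=
  mul_le_one₀ (cU_mem top s).2 (cL_mem bot s).1 (cL_mem bot s).2

variable {top bot}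

theorem cW_top {s : ℝ} (h : ¬ top) (hs : 4 ≤ s) : cW top bot s = 0 := by
  simp [cW, cU, h, E.zeta_zero (show 2 ≤ s / 2 by linarith)]

theorem cW_bot {s : ℝ} (h : ¬ bot) (hs : s ≤ 1 / 5) : cW top bot s = 0 := by
  simp [cW, cL, h, E.zeta_one (show 5 * s ≤ 1 by linarith)]

theorem cW_one {s : ℝ} (h1 : top ∨ s ≤ 2) (h2 : bot ∨ 2 / 5 ≤ s) : cW top bot s = 1 := by
  have a : cU top s = 1 := by
    unfold cU; split_ifs with h
    · rfl
    · exact E.zeta_one (by have := h1.resolve_left h; linarith)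
  have b : cL bot s = 1 := by
    unfold cL; split_ifs with h
    · rfl
    · rw [E.zeta_zero (by have := h2.resolve_left h; linarith)]; ring
  rw [cW, a, b, one_mul]

end prof

theorem bdd2 {f : ℝ → ℝ} (hf : ContDiff ℝ ∞ f) : ∃ K : ℝ, 1 ≤ K ∧ ∀ s ∈ Icc (-20 : ℝ) 20,
    |deriv f s| ≤ K ∧ |deriv (deriv f) s| ≤ K := by
  have h1 : ContDiff ℝ ∞ (deriv f) := hf.deriv'
  have h2 : ContDiff ℝ ∞ (deriv (deriv f)) := h1.deriv'
  obtain ⟨K1, hK1⟩ := isCompact_Icc.exists_bound_of_continuousOn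
    (h1.continuous.continuousOn (s := Icc (-20 : ℝ) 20))
  obtain ⟨K2, hK2⟩ := isCompact_Icc.exists_bound_of_continuousOn
    (h2.continuous.continuousOn (s := Icc (-20 : ℝ) 20))
  refine ⟨max 1 (max K1 K2), le_max_left _ _, fun s hs => ⟨?_, ?_⟩⟩
  · exact (hK1 s hs).trans ((le_max_left _ _).trans (le_max_right _ _))
  · exact (hK2 s hs).trans ((le_max_right _ _).trans (le_max_right _ _))

theorem cW_bdd : ∃ K : ℝ, 1 ≤ K ∧ ∀ (top bot : Prop) [Decidable top] [Decidable bot],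
    ∀ s ∈ Icc (-20 : ℝ) 20, |deriv (cW top bot) s| ≤ K ∧ |deriv (deriv (cW top bot)) s| ≤ K := by
  obtain ⟨K1, a1, h1⟩ := bdd2 (cW_cd True True)
  obtain ⟨K2, -, h2⟩ := bdd2 (cW_cd True False)
  obtain ⟨K3, -, h3⟩ := bdd2 (cW_cd False True)
  obtain ⟨K4, -, h4⟩ := bdd2 (cW_cd False False)
  refine ⟨max (max K1 K2) (max K3 K4), a1.trans ((le_max_left _ _).trans (le_max_left _ _)), ?_⟩
  intro top bot _ _ s hs
  by_cases ht : top <;> by_cases hb : bot
  · have e : cW top bot = cW True True := by funext y; simp [cW, cU, cL, ht, hb]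
    have l : K1 ≤ max (max K1 K2) (max K3 K4) := (le_max_left _ _).trans (le_max_left _ _)
    rw [e]; exact ⟨(h1 s hs).1.trans l, (h1 s hs).2.trans l⟩
  · have e : cW top bot = cW True False := by funext y; simp [cW, cU, cL, ht, hb]
    have l : K2 ≤ max (max K1 K2) (max K3 K4) := (le_max_right _ _).trans (le_max_left _ _)
    rw [e]; exact ⟨(h2 s hs).1.trans l, (h2 s hs).2.trans l⟩
  · have e : cW top bot = cW False True := by funext y; simp [cW, cU, cL, ht, hb]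
    have l : K3 ≤ max (max K1 K2) (max K3 K4) := (le_max_left _ _).trans (le_max_right _ _)
    rw [e]; exact ⟨(h3 s hs).1.trans l, (h3 s hs).2.trans l⟩
  · have e : cW top bot = cW False False := by funext y; simp [cW, cU, cL, ht, hb]
    have l : K4 ≤ max (max K1 K2) (max K3 K4) := (le_max_right _ _).trans (le_max_right _ _)
    rw [e]; exact ⟨(h4 s hs).1.trans l, (h4 s hs).2.trans l⟩

variable {t η r r' : ℝ} {z x : M} {β β' : M → ℝ}

theorem LocAt.small (h : LocAt H t z η r β) (hη : η ≤ 1 / 100) (hr : 0 < r)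
    (hx : H.d t z x ≤ 3 / 10 * r) : β x / r ^ 2 ≤ 1 / 5 := by
  rw [div_le_iff₀ (by positivity)]
  rcases le_total (H.d t z x) (r / 4) with h1 | h1
  · have := h.inn x h1; nlinarith
  · have := (abs_le.1 (h.mid x h1 (by linarith)).1).2
    nlinarith

theorem LocAt.big (h : LocAt H t z η r β) (hη : η ≤ 1 / 100) (hr : 0 < r)
    (hx : 3 * r ≤ H.d t z x) : 4 ≤ β x / r ^ 2 := by
  rw [le_div_iff₀ (by positivity)]
  rcases le_total (4 * r) (H.d t z x) with h1 | h1
  · have := h.out x h1; nlinarith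
  · have := (abs_le.1 (h.mid x (by linarith) h1).1).1
    nlinarith

theorem LocAt.le_two (h : LocAt H t z η r β) (hη : η ≤ 1 / 100) (hr : 0 < r)
    (hx : H.d t z x ≤ 13 / 10 * r) : β x / r ^ 2 ≤ 2 := by
  rw [div_le_iff₀ (by positivity)]
  rcases le_total (H.d t z x) (r / 4) with h1 | h1
  · have := h.inn x h1; nlinarith
  · have := (abs_le.1 (h.mid x h1 (by linarith)).1).2
    nlinarith

theorem LocAt.ge_two (h : LocAt H t z η r β) (hη : η ≤ 1 / 100) (hr : 0 < r)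
    (hx : 13 / 20 * r ≤ H.d t z x) : 2 / 5 ≤ β x / r ^ 2 := by
  rw [le_div_iff₀ (by positivity)]
  rcases le_total (4 * r) (H.d t z x) with h1 | h1
  · have := h.out x h1; nlinarith
  · have := (abs_le.1 (h.mid x (by linarith) h1).1).1
    nlinarith

/-- the size of `β / r²` at the scale `ρ = d(z,x)` -/
theorem LocAt.sz (A : H.Alg) (ht : t ∈ Ioo 0 H.T) (h : LocAt H t z η r β) (hη : η ≤ 1 / 100)
    (hr : 0 < r) (h1 : 3 / 10 * r ≤ H.d t z x) (h2 : H.d t z x ≤ 3 * r) :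
    Sz H t x (H.d t z x) β (100 * r ^ 2) := by
  obtain ⟨a1, a2, a3, -⟩ := h.mid x (by linarith) (by linarith)
  set ρ := H.d t z x
  have hρ : 0 < ρ := by linarith
  obtain ⟨b1, b2⟩ := abs_le.1 a1
  have hr2 : 0 < r ^ 2 := by positivity
  have c1 : ρ ^ 2 ≤ 9 * r ^ 2 := by nlinarith
  have c2 : η * r ^ 2 ≤ r ^ 2 := by nlinarith
  refine ⟨h.s0, abs_le.2 ⟨by nlinarith [sq_nonneg ρ], by nlinarith⟩, ?_, ?_⟩
  · have c3 : √(H.gam t β β x) ≤ 7 * r := by
      rw [Real.sqrt_le_left (by positivity)]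
      have := (abs_le.1 a2).2
      nlinarith
    rw [le_div_iff₀ hρ]
    calc √(H.gam t β β x) * ρ ≤ 7 * r * (3 * r) := by gcongr
      _ ≤ 100 * r ^ 2 := by nlinarith
  · rw [le_div_iff₀ (by positivity)]
    have c4 : |H.lap t β x| ≤ 9 := by
      obtain ⟨d1, d2⟩ := abs_le.1 a3
      exact abs_le.2 ⟨by linarith, by linarith⟩
    calc |H.lap t β x| * ρ ^ 2 ≤ 9 * (9 * r ^ 2) := by gcongr
      _ ≤ 100 * r ^ 2 := by nlinarith

/-- the size of an alive weight -/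
theorem sz_weight : ∃ L : ℝ, 1 ≤ L ∧ ∀ {M : Type*} [TopologicalSpace M] [CompactSpace M]
    [MeasurableSpace M] {H : HC M}, H.Alg → ∀ {t η r : ℝ} {z x : M} {β : M → ℝ}, t ∈ Ioo 0 H.T →
    LocAt H t z η r β → η ≤ 1 / 100 → 0 < r → 3 / 10 * r ≤ H.d t z x → H.d t z x ≤ 3 * r →
    ∀ (top bot : Prop) [Decidable top] [Decidable bot],
    Sz H t x (H.d t z x) (fun y => cW top bot (β y / r ^ 2)) L := by
  obtain ⟨K, hK, hb⟩ := cW_bdd
  refine ⟨K * (1 + 100 + 100 ^ 2), by nlinarith, ?_⟩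
  intro M _ _ _ H A t η r z x β ht h hη hr h1 h2 top bot _ _
  have hρ : 0 < H.d t z x := by linarith
  have hr2 : 0 < r ^ 2 := by positivity
  have s1 := (h.sz A ht hη hr h1 h2).cmul A ht (r ^ 2)⁻¹
  have e : |(r ^ 2)⁻¹| * (100 * r ^ 2) = 100 := by
    rw [abs_of_pos (inv_pos.2 hr2)]; field_simp
  rw [e] at s1
  have hm : (r ^ 2)⁻¹ * β x ∈ Icc (-20 : ℝ) 20 := by
    obtain ⟨b1, b2⟩ := abs_le.1 (h.mid x (by linarith) (by linarith)).1
    rw [inv_mul_eq_div, mem_Icc, le_div_iff₀ hr2, div_le_iff₀ hr2]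
    constructor <;> nlinarith [sq_nonneg (H.d t z x)]
  have s2 := Sz.comp A ht hρ isOpen_univ (cW_cd top bot).contDiffOn (fun y => mem_univ _)
    (K := K) (by rw [abs_of_nonneg (cW_nonneg _ _ _)]; exact (cW_le _ _ _).trans hK)
    (hb top bot _ hm).1 (hb top bot _ hm).2 s1
  simpa only [inv_mul_eq_div] using s2

/-- two radial functions are close in `C²` -/
theorem sz_diff : ∃ C : ℝ, 1 ≤ C ∧ ∀ {M : Type*} [TopologicalSpace M] [CompactSpace M]
    [MeasurableSpace M] {H : HC M}, H.Alg → H.Evo → H.Dist → HhSub H →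
    ∀ {t e r r' : ℝ} {z x : M} {β β' : M → ℝ}, t ∈ Ioo 0 H.T →
    LocAt H t z (e ^ 2) r β → LocAt H t z (e ^ 2) r' β' → 0 < e → e ≤ 1 / 10 → 0 < r → 0 < r' →
    3 / 10 * r ≤ H.d t z x → H.d t z x ≤ 3 * r → 3 / 10 * r' ≤ H.d t z x → H.d t z x ≤ 3 * r' →
    Sz H t x (H.d t z x) (fun y => β y - β' y) (C * e * H.d t z x ^ 2) := by
  obtain ⟨C, hC, hg⟩ := grad_small.{_}
  refine ⟨30 * C + 3, by linarith, ?_⟩
  intro M _ _ _ H A Ev D hs t e r r' z x β β' ht h h' he he1 hr hr' h1 h2 h1' h2'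
  set ρ := H.d t z x with hρd
  have hρ : 0 < ρ := by linarith
  have hball : ∀ y, H.d t x y < ρ / 10 → 9 / 10 * ρ ≤ H.d t z y ∧ H.d t z y ≤ 11 / 10 * ρ := by
    intro y hy
    have a := D.tri t ht z x y
    have b := D.tri t ht z y x
    rw [D.symm t ht y x] at b
    constructor <;> linarith
  have e2 : e ^ 2 ≤ e / 10 := by nlinarith
  have hrr : r ^ 2 ≤ 12 * ρ ^ 2 := by nlinarith
  have hrr' : r' ^ 2 ≤ 12 * ρ ^ 2 := by nlinarith
  have hv : ∀ y, H.d t x y < ρ / 10 → |β y - β' y| ≤ 3 * e * ρ ^ 2 := by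
    intro y hy
    obtain ⟨a, b⟩ := hball y hy
    obtain ⟨c1, c2⟩ := abs_le.1 (h.mid y (by linarith) (by linarith)).1
    obtain ⟨d1, d2⟩ := abs_le.1 (h'.mid y (by linarith) (by linarith)).1
    have f1 : e ^ 2 * r ^ 2 ≤ e / 10 * (12 * ρ ^ 2) := by gcongr
    have f2 : e ^ 2 * r' ^ 2 ≤ e / 10 * (12 * ρ ^ 2) := by gcongr
    have f3 : 0 ≤ e * ρ ^ 2 := by positivity
    exact abs_le.2 ⟨by linarith, by linarith⟩
  have hh : ∀ y, H.d t x y < ρ / 10 → H.hh t (fun y => β y - β' y) y ≤ (5 * e) ^ 2 := by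
    intro y hy
    obtain ⟨a, b⟩ := hball y hy
    obtain ⟨-, -, c1, c2⟩ := h.mid y (by linarith) (by linarith)
    obtain ⟨-, -, d1, d2⟩ := h'.mid y (by linarith) (by linarith)
    have := hs t ht β β' h.s0 h'.s0 y
    have := (abs_le.1 c1).1
    have := (abs_le.1 c2).2
    have := (abs_le.1 d1).1
    have := (abs_le.1 d2).2
    nlinarith [sq_nonneg e]
  have hx : H.d t x x < ρ / 10 := by rw [D.self t ht]; positivity
  have f3 : 0 ≤ e * ρ ^ 2 := by positivity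
  refine ⟨A.s0_sub h.s0 h'.s0, (hv x hx).trans (by nlinarith), ?_, ?_⟩
  · refine (hg A Ev D ht (A.s0_sub h.s0 h'.s0) (by positivity) (by positivity) (by positivity)
      hv hh).trans ?_
    have : C * (3 * e * ρ ^ 2) / (ρ / 10) + 5 * e * (ρ / 10) = (30 * C + 1 / 2) * e * ρ ^ 2 / ρ := by
      field_simp; ring
    rw [this]; gcongr; norm_num
  · rw [A.lap_sub ht h.s0 h'.s0, mul_div_assoc, div_self (by positivity), mul_one]
    obtain ⟨-, -, c1, -⟩ := h.mid x (by linarith) (by linarith)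
    obtain ⟨-, -, d1, -⟩ := h'.mid x (by linarith) (by linarith)
    obtain ⟨c2, c3⟩ := abs_le.1 c1
    obtain ⟨d2, d3⟩ := abs_le.1 d1
    have : 0 ≤ C * e := by positivity
    exact abs_le.2 ⟨by nlinarith, by nlinarith⟩

end Crest.Agent.N207.Rad

end
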