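import Crest.Agent.N207.Rad.Crd
import Crest.Agent.N207.Rad.Loc
import Crest.Agent.N207.AI.Par2

/-!
# Row 207, block P0 (helper89): the function `|y|²` in an almost flat chart; `HhSub`
-/

set_option autoImplicit false
set_option linter.unusedSectionVars false

open scoped ContDiff Topology Manifold
open Set Filter
open Crest.GeometryTopology.CoordMetric Crest.GeometryTopology.ChartCurvature
  Crest.GeometryTopology.MetricFamily
open Crest.Agent.R202.Tens Crest.Agent.R247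

noncomputable section

namespace Crest.Agent.N207.Rad

open Sk

variable {G : MetricField 4} {U : Set E4} {x : E4} {s η : ℝ} {m : ℕ}

/-- `|y|²` -/
def nq (y : E4) : ℝ := ‖y‖ ^ 2

theorem nq_cd : ContDiff ℝ ∞ nq := contDiff_norm_sq ℝ

theorem pd_nq (i : Fin 4) (y : E4) : pderiv i nq y = 2 * y i := by
  unfold pderiv nq
  rw [(hasStrictFDerivAt_norm_sq y).hasFDerivAt.fderiv]
  simp [EuclideanSpace.inner_single_right]

theorem pd_pd_nq (a b : Fin 4) (y : E4) :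
    pderiv a (pderiv b nq) y = 2 * (1 : Matrix (Fin 4) (Fin 4) ℝ) a b := by
  have : pderiv b nq = fun z => 2 * z b := funext (pd_nq b)
  rw [this, pd_cmul]
  congr 1
  unfold pderiv
  rw [show (fun z : E4 => z b) = (EuclideanSpace.proj b : E4 →L[ℝ] ℝ) from rfl,
    ContinuousLinearMap.fderiv]
  simp [Matrix.one_apply, Pi.single_apply, eq_comm]

variable (hG : IsRiemannianOn G U) (hx : x ∈ U)
include hG hx

theorem ipA_met (B : Arr 4 2) :
    ipA (G x)⁻¹ B (matT G x) = ∑ a, ∑ c, (G x)⁻¹ a c * B ![a, c] := by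
  rw [ipA_two]
  refine Finset.sum_congr rfl fun a _ => ?_
  rw [Finset.sum_comm]
  refine Finset.sum_congr rfl fun c _ => ?_
  have := ginv_g_sum hG hx a (fun d => (G x)⁻¹ c d)
  rw [ginv_symm hG hx a c, ← this, Finset.sum_mul]
  refine Finset.sum_congr rfl fun b _ => ?_
  rw [Finset.mul_sum, Finset.sum_mul]
  refine Finset.sum_congr rfl fun d _ => ?_
  simp only [matT, Matrix.cons_val_zero, Matrix.cons_val_one]
  ring

theorem ipA_met_met : ipA (G x)⁻¹ (matT G x) (matT G x) = 4 := by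
  rw [ipA_met hG hx]
  exact (tr_g hG hx).trans (by norm_num)

theorem ipA_sub_two (B : Arr 4 2) : ipA (G x)⁻¹ (B - (2 : ℝ) • matT G x) (B - (2 : ℝ) • matT G x) =
    ipA (G x)⁻¹ B B - 4 * (∑ a, ∑ c, (G x)⁻¹ a c * B ![a, c]) + 16 := by
  rw [Ar.ipA_sub_self (hG.posDef x hx), ipA_smul_right, ipA_smul_left, ipA_smul_right,
    ipA_met_met hG hx, ipA_met hG hx]
  ring

theorem tr_sub_two (B : Arr 4 2) : |(∑ a, ∑ c, (G x)⁻¹ a c * B ![a, c]) - 8| ≤
    2 * √(ipA (G x)⁻¹ (B - (2 : ℝ) • matT G x) (B - (2 : ℝ) • matT G x)) := by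
  have h := Ar.abs_ipA_le (hG.posDef x hx) (B - (2 : ℝ) • matT G x) (matT G x)
  rw [ipA_met_met hG hx, ipA_sub_left _ _ (matT G x), ipA_smul_left, ipA_met_met hG hx,
    ipA_met hG hx, show √(4 : ℝ) = 2 by rw [show (4 : ℝ) = 2 ^ 2 by norm_num]; simp] at h
  calc _ = |(∑ a, ∑ c, (G x)⁻¹ a c * B ![a, c]) - 2 * 4| := by norm_num
    _ ≤ _ := h.trans (le_of_eq (mul_comm _ _))

theorem hess_sub {f g : E4 → ℝ} (hf : ContDiffOn ℝ ∞ f U) (hg : ContDiffOn ℝ ∞ g U) :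
    hessT G (fun y => f y - g y) x = hessT G f x - hessT G g x := by
  refine arr2_ext fun a b => ?_
  have e : ∀ c, ∀ y ∈ U, pderiv c (fun y => f y - g y) y = pderiv c f y - pderiv c g y :=
    fun c y hy => pd_sub c (dAt hf hG.isOpen hy) (dAt hg hG.isOpen hy)
  rw [Pi.sub_apply, hessT_apply, hessT_apply, hessT_apply, pd_congr_on a hG.isOpen hx (e b),
    pd_sub a (dAt (sm_pd hG.isOpen hf b) hG.isOpen hx) (dAt (sm_pd hG.isOpen hg b) hG.isOpen hx)]
  simp only [e _ x hx, mul_sub, Finset.sum_sub_distrib]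
  ring

theorem nsq_hess_sub {f g : E4 → ℝ} (hf : ContDiffOn ℝ ∞ f U) (hg : ContDiffOn ℝ ∞ g U) :
    nsq G (hessT G fun y => f y - g y) x ≤
      2 * (nsq G (hessT G f) x - 4 * laplaceBeltrami G f x + 16) +
        2 * (nsq G (hessT G g) x - 4 * laplaceBeltrami G g x + 16) := by
  have h := Ar.ipA_sub_le (hG.posDef x hx) (hessT G f x - (2 : ℝ) • matT G x)
    (hessT G g x - (2 : ℝ) • matT G x)
  rw [sub_sub_sub_cancel_right, ipA_sub_two hG hx, ipA_sub_two hG hx, ← hess_sub hG hx hf hg] at h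
  rw [lapB_eq_trT hG hx (c2At hf hG.isOpen hx), lapB_eq_trT hG hx (c2At hg hG.isOpen hx)]
  exact h

theorem nq_gam (h : JG m G x s η) (hη : η ≤ 1 / 100) :
    |Bo84.gam G nq nq x - 4 * ‖x‖ ^ 2| ≤ 128 * η * ‖x‖ ^ 2 := by
  have h1 := quad_le (jg_inv hG hx h hη) x
  have e : Bo84.gam G nq nq x - 4 * ‖x‖ ^ 2 =
      4 * ∑ i, ∑ j, ((G x)⁻¹ i j - (1 : Matrix (Fin 4) (Fin 4) ℝ) i j) * x i * x j := by
    rw [← Ar.bil_one x, bil_apply]
    simp only [Bo84.gam, inverseField, pd_nq, sub_mul, Finset.sum_sub_distrib, mul_sub,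
      Finset.mul_sum]
    congr 1
    exact Finset.sum_congr rfl fun i _ => Finset.sum_congr rfl fun j _ => by ring
  rw [e, abs_mul, abs_of_pos (by norm_num : (0 : ℝ) < 4)]
  linarith

theorem nq_hess (h : JG m G x ‖x‖ η) (hη : η ≤ 1 / 100) (hm : 1 ≤ m) (hs : 0 < ‖x‖) :
    √(ipA (G x)⁻¹ (hessT G nq x - (2 : ℝ) • matT G x) (hessT G nq x - (2 : ℝ) • matT G x)) ≤
      800 * η := by
  have hη0 := jg_nonneg h
  have b : ∀ I, |(hessT G nq x - (2 : ℝ) • matT G x) I| ≤ 98 * η := by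
    intro I
    have e : I = ![I 0, I 1] := by funext i; fin_cases i <;> rfl
    rw [e, Pi.sub_apply, hessT_apply, pd_pd_nq]
    have c1 : ∀ k, |pderiv k nq x| ≤ 2 * ‖x‖ := fun k => by
      rw [pd_nq, abs_mul, abs_two]
      have := PiLp.norm_apply_le x k
      rw [Real.norm_eq_abs] at this
      linarith
    have c2 := sum4_le fun k => abs_mul_le (jg_chr hG hx h hη hm hs k (I 0) (I 1)) (c1 k)
    have c3 : 4 * (12 * (η / ‖x‖) * (2 * ‖x‖)) = 96 * η := by field_simp; ring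
    obtain ⟨c4, c5⟩ := abs_le.1 (c2.trans c3.le)
    obtain ⟨c6, c7⟩ := abs_le.1 (jg_ent h (I 0) (I 1))
    simp only [Pi.smul_apply, smul_eq_mul, matT, Matrix.cons_val_zero, Matrix.cons_val_one]
    exact abs_le.2 ⟨by linarith, by linarith⟩
  rw [Real.sqrt_le_left (by positivity)]
  refine (jg_ipA hG hx h hη b).trans ?_
  nlinarith [sq_nonneg η]

theorem nq_lap (h : JG m G x ‖x‖ η) (hη : η ≤ 1 / 100) (hm : 1 ≤ m) (hs : 0 < ‖x‖) :
    |laplaceBeltrami G nq x - 8| ≤ 1600 * η := by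
  rw [lapB_eq_trT hG hx (nq_cd.contDiffAt.of_le Bo84.two_le_infty)]
  exact (tr_sub_two hG hx _).trans (by linarith [nq_hess hG hx h hη hm hs])

theorem nq_hh (h : JG m G x ‖x‖ η) (hη : η ≤ 1 / 100) (hm : 1 ≤ m) (hs : 0 < ‖x‖) :
    |nsq G (hessT G nq) x - 16| ≤ 12800 * η := by
  have hη0 := jg_nonneg h
  have h1 := nq_hess hG hx h hη hm hs
  have h2 := tr_sub_two hG hx (hessT G nq x)
  have h3 := ipA_sub_two hG hx (hessT G nq x)
  have h4 := Ar.ipA_nonneg (hG.posDef x hx) (hessT G nq x - (2 : ℝ) • matT G x)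
  rw [Real.sqrt_le_left (by positivity)] at h1
  obtain ⟨h5, h6⟩ := abs_le.1 (h2.trans (by linarith [nq_hess hG hx h hη hm hs] : _ ≤ 1600 * η))
  have e : nsq G (hessT G nq) x = ipA (G x)⁻¹ (hessT G nq x) (hessT G nq x) := rfl
  rw [e]
  exact abs_le.2 ⟨by linarith, by nlinarith⟩

omit hG hx in
theorem hhSub {M : Type*} [TopologicalSpace M] [ChartedSpace E4 M] [IsManifold 𝓘(ℝ, E4) ∞ M]
    [T3Space M] [ConnectedSpace M] [MeasurableSpace M] [BorelSpace M] (F : Flow M) :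
    HhSub F.hc := fun t _ _ _ hu hv x =>
  nsq_hess_sub ((F.m t).riem_G x) (ctr_mem x) (Sm.inCh hu x) (Sm.inCh hv x)

end Crest.Agent.N207.Rad

end
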