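import Crest.Agent.N207.Sk.Defs
import Crest.Agent.N207.A.Co3
import Crest.Agent.N207.A.Arr

/-!
# Row 207 (helper89): pointwise consequences of `JG` (entries, inverse, Christoffel symbols, curvature)
-/

set_option autoImplicit false
set_option linter.unusedSectionVars false

open scoped ContDiff Topology
open Set Filter
open Crest.GeometryTopology.CoordMetric Crest.GeometryTopology.ChartCurvature
  Crest.GeometryTopology.MetricFamily
open Crest.Agent.R202.Tens Crest.Agent.R247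

noncomputable section

namespace Crest.Agent.N207.Rad

open Sk

variable {G : MetricField 4} {U : Set E4} {x : E4} {s η : ℝ} {m : ℕ}

theorem sum4_le {f : Fin 4 → ℝ} {c : ℝ} (h : ∀ i, |f i| ≤ c) : |∑ i, f i| ≤ 4 * c :=
  (Finset.abs_sum_le_sum_abs _ _).trans ((Finset.sum_le_sum fun i _ => h i).trans (by simp))

theorem abs_mul_le {a b c d : ℝ} (h1 : |a| ≤ c) (h2 : |b| ≤ d) : |a * b| ≤ c * d := by
  rw [abs_mul]; exact mul_le_mul h1 h2 (abs_nonneg _) ((abs_nonneg _).trans h1)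

theorem jg_mono {m' : ℕ} {η' : ℝ} (h : JG m G x s η) (hm : m' ≤ m) (hη : η ≤ η') : JG m' G x s η' :=
  fun k hk i j => (h k (hk.trans hm) i j).trans hη

theorem jg_ent (h : JG m G x s η) (i j : Fin 4) :
    |G x i j - (1 : Matrix (Fin 4) (Fin 4) ℝ) i j| ≤ η := by
  have := h 0 (Nat.zero_le _) i j
  simpa [J1, dv] using this

theorem jg_nonneg (h : JG m G x s η) : 0 ≤ η := (abs_nonneg _).trans (jg_ent h 0 0)

theorem fderiv_dv (G : MetricField 4) (i j : Fin 4) :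
    fderiv ℝ (dv G i j) = fderiv ℝ fun y => G y i j := by
  funext y; exact fderiv_sub_const _

theorem jg_pd (h : JG m G x s η) (hm : 1 ≤ m) (hs : 0 < s) (k i j : Fin 4) :
    |pderiv k (fun y => G y i j) x| ≤ η / s := by
  have h1 := h 1 hm i j
  rw [J1, ← norm_iteratedFDeriv_fderiv, norm_iteratedFDeriv_zero, fderiv_dv, pow_one,
    ← le_div_iff₀ hs] at h1
  refine le_trans ?_ h1
  simpa [pderiv] using (fderiv ℝ (fun y => G y i j) x).le_opNorm (EuclideanSpace.single k 1)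

theorem jg_pd2 (hG : IsRiemannianOn G U) (hx : x ∈ U) (h : JG m G x s η) (hm : 2 ≤ m) (hs : 0 < s)
    (l k i j : Fin 4) : |pderiv l (pderiv k fun y => G y i j) x| ≤ η / s ^ 2 := by
  have h1 := h 2 hm i j
  rw [J1, ← norm_iteratedFDeriv_fderiv, ← norm_iteratedFDeriv_fderiv, norm_iteratedFDeriv_zero,
    fderiv_dv, ← le_div_iff₀ (by positivity)] at h1
  refine le_trans ?_ h1
  have hd : DifferentiableAt ℝ (fderiv ℝ fun y => G y i j) x :=
    ((c2At (hG.contDiffOn i j) hG.isOpen hx).fderiv_right (m := 1) le_rfl).differentiableAt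
      one_ne_zero
  have e : pderiv l (pderiv k fun y => G y i j) x = fderiv ℝ (fderiv ℝ fun y => G y i j) x
      (EuclideanSpace.single l 1) (EuclideanSpace.single k 1) := by
    unfold pderiv
    rw [fderiv_clm_apply hd (differentiableAt_const _)]
    simp
  rw [e]
  simpa using (fderiv ℝ (fderiv ℝ fun y => G y i j) x).le_opNorm₂ (EuclideanSpace.single l 1)
    (EuclideanSpace.single k 1)

theorem quad_le {D : Fin 4 → Fin 4 → ℝ} {c : ℝ} (h : ∀ i j, |D i j| ≤ c) (v : E4) :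
    |∑ i, ∑ j, D i j * v i * v j| ≤ 4 * c * ‖v‖ ^ 2 := by
  have hc : 0 ≤ c := (abs_nonneg _).trans (h 0 0)
  have h1 : |∑ i, ∑ j, D i j * v i * v j| ≤ ∑ i, ∑ j, c * (v i ^ 2 + v j ^ 2) / 2 := by
    refine (Finset.abs_sum_le_sum_abs _ _).trans (Finset.sum_le_sum fun i _ =>
      (Finset.abs_sum_le_sum_abs _ _).trans (Finset.sum_le_sum fun j _ => ?_))
    rw [mul_assoc, abs_mul, mul_div_assoc]
    refine mul_le_mul (h i j) ?_ (abs_nonneg _) hc
    rw [abs_mul]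
    nlinarith [sq_nonneg (|v i| - |v j|), sq_abs (v i), sq_abs (v j)]
  rw [EuclideanSpace.real_norm_sq_eq]
  refine h1.trans (le_of_eq ?_)
  simp only [Fin.sum_univ_four]; ring

theorem jg_bil (h : JG m G x s η) (v : E4) : |bil (G x) v v - ‖v‖ ^ 2| ≤ 4 * η * ‖v‖ ^ 2 := by
  have := quad_le (jg_ent h) v
  rw [← Ar.bil_one v, bil_apply, bil_apply, ← Finset.sum_sub_distrib]
  simp only [← Finset.sum_sub_distrib, ← sub_mul]
  rwa [← bil_apply (1 : Matrix (Fin 4) (Fin 4) ℝ), Ar.bil_one]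

theorem jg_low (h : JG m G x s η) (hη : η ≤ 1 / 100) (v : E4) : ‖v‖ ^ 2 ≤ 2 * bil (G x) v v := by
  have := (abs_le.1 (jg_bil h v)).1
  nlinarith [sq_nonneg ‖v‖]

theorem jg_up (h : JG m G x s η) (hη : η ≤ 1 / 100) (v : E4) : bil (G x) v v ≤ 2 * ‖v‖ ^ 2 := by
  have := (abs_le.1 (jg_bil h v)).2
  nlinarith [sq_nonneg ‖v‖]

theorem jg_ent_le (h : JG m G x s η) (hη : η ≤ 1 / 100) (i j : Fin 4) : |G x i j| ≤ 2 := by
  have := abs_le.1 (jg_ent h i j)
  rw [Matrix.one_apply] at this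
  split_ifs at this <;> exact abs_le.2 ⟨by linarith [this.1], by linarith [this.2]⟩

variable (hG : IsRiemannianOn G U) (hx : x ∈ U)
include hG hx

theorem jg_ipA {k : ℕ} (h : JG m G x s η) (hη : η ≤ 1 / 100) {B : Arr 4 k} {c : ℝ}
    (hB : ∀ I, |B I| ≤ c) : ipA (G x)⁻¹ B B ≤ 8 ^ k * c ^ 2 := by
  refine (Ar.ipA_le_sum_sq (hG.posDef x hx) zero_le_two (jg_low h hη) B).trans ?_
  have : ∑ I, B I ^ 2 ≤ ∑ _I : Fin k → Fin 4, c ^ 2 :=
    Finset.sum_le_sum fun I _ => sq_le_sq' (abs_le.1 (hB I)).1 (abs_le.1 (hB I)).2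
  simp only [Finset.sum_const, Finset.card_univ, Fintype.card_fun, Fintype.card_fin,
    nsmul_eq_mul, Nat.cast_pow, Nat.cast_ofNat] at this
  calc (2 : ℝ) ^ k * ∑ I, B I ^ 2 ≤ 2 ^ k * (4 ^ k * c ^ 2) := by gcongr
    _ = 8 ^ k * c ^ 2 := by rw [← mul_assoc, ← mul_pow]; norm_num

theorem jg_inv_le (h : JG m G x s η) (hη : η ≤ 1 / 100) (i j : Fin 4) : |(G x)⁻¹ i j| ≤ 2 := by
  let e : Fin 4 → Arr 4 1 := fun a I => if I 0 = a then 1 else 0
  have e1 : ∀ a b, ipA (G x)⁻¹ (e a) (e b) = (G x)⁻¹ a b := fun a b => by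
    simp [Ar.ipA_rank1, e]
  have e2 : ∀ a, √(ipA (G x)⁻¹ (e a) (e a)) ≤ √2 := fun a => Real.sqrt_le_sqrt (by
    refine (Ar.ipA_le_sum_sq (hG.posDef x hx) zero_le_two (jg_low h hη) _).trans (le_of_eq ?_)
    rw [← (Equiv.funUnique (Fin 1) (Fin 4)).symm.sum_comp]
    simp [e])
  rw [← e1]
  refine (Ar.abs_ipA_le (hG.posDef x hx) _ _).trans ?_
  calc _ ≤ √2 * √2 := mul_le_mul (e2 i) (e2 j) (Real.sqrt_nonneg _) (Real.sqrt_nonneg _)
    _ = 2 := Real.mul_self_sqrt zero_le_two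

theorem jg_inv (h : JG m G x s η) (hη : η ≤ 1 / 100) (i j : Fin 4) :
    |(G x)⁻¹ i j - (1 : Matrix (Fin 4) (Fin 4) ℝ) i j| ≤ 8 * η := by
  have e : (G x)⁻¹ i j - (1 : Matrix (Fin 4) (Fin 4) ℝ) i j =
      -∑ k, (G x)⁻¹ i k * (G x k j - (1 : Matrix (Fin 4) (Fin 4) ℝ) k j) := by
    simp only [mul_sub, Finset.sum_sub_distrib, ginv_g hG hx, Matrix.one_apply]
    simp
  rw [e, abs_neg]
  exact (sum4_le fun k => abs_mul_le (jg_inv_le hG hx h hη i k) (jg_ent h k j)).trans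
    (le_of_eq (by ring))

theorem jg_chr (h : JG m G x s η) (hη : η ≤ 1 / 100) (hm : 1 ≤ m) (hs : 0 < s) (k i j : Fin 4) :
    |christoffel G x k i j| ≤ 12 * (η / s) := by
  have b : ∀ l, |pderiv i (fun y => G y j l) x + pderiv j (fun y => G y i l) x -
      pderiv l (fun y => G y i j) x| ≤ 3 * (η / s) := fun l => by
    obtain ⟨a1, a2⟩ := abs_le.1 (jg_pd h hm hs i j l)
    obtain ⟨a3, a4⟩ := abs_le.1 (jg_pd h hm hs j i l)
    obtain ⟨a5, a6⟩ := abs_le.1 (jg_pd h hm hs l i j)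
    exact abs_le.2 ⟨by linarith, by linarith⟩
  have := sum4_le fun l => abs_mul_le (jg_inv_le hG hx h hη k l) (b l)
  unfold christoffel inverseField
  rw [abs_mul, abs_of_pos (by norm_num : (0 : ℝ) < 1 / 2)]
  linarith

theorem jg_pd_inv (h : JG m G x s η) (hη : η ≤ 1 / 100) (hm : 1 ≤ m) (hs : 0 < s) (l a b : Fin 4) :
    |pderiv l (fun y => (G y)⁻¹ a b) x| ≤ 64 * (η / s) := by
  rw [pd_ginv' hG hx, abs_neg]
  exact (sum4_le fun c => sum4_le fun d => abs_mul_le (abs_mul_le (jg_inv_le hG hx h hη a c)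
    (jg_pd h hm hs l c d)) (jg_inv_le hG hx h hη d b)).trans (le_of_eq (by ring))

theorem jg_pd_chr (h : JG m G x s η) (hη : η ≤ 1 / 100) (hm : 2 ≤ m) (hs : 0 < s)
    (a k i j : Fin 4) : |pderiv a (fun y => christoffel G y k i j) x| ≤ 16 * (η / s ^ 2) := by
  have hm1 : 1 ≤ m := one_le_two.trans hm
  have hη0 := jg_nonneg h
  have d1 : ∀ p q r : Fin 4, DifferentiableAt ℝ (pderiv p fun y => G y q r) x := fun p q r =>
    dAt (sm_pd hG.isOpen (hG.contDiffOn q r) p) hG.isOpen hx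
  have d2 : ∀ l, DifferentiableAt ℝ (fun y => (G y)⁻¹ k l) x := fun l =>
    dAt (sm_inv hG k l) hG.isOpen hx
  have d3 : ∀ l, DifferentiableAt ℝ (fun z => pderiv i (fun y => G y j l) z +
      pderiv j (fun y => G y i l) z - pderiv l (fun y => G y i j) z) x := fun l =>
    ((d1 _ _ _).add (d1 _ _ _)).sub (d1 _ _ _)
  unfold christoffel inverseField
  rw [pd_cmul, pd_sum a _ fun l _ => (d2 l).fun_mul (d3 l), abs_mul,
    abs_of_pos (by norm_num : (0 : ℝ) < 1 / 2)]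
  have b : ∀ l, |pderiv a (fun z => (G z)⁻¹ k l * (pderiv i (fun y => G y j l) z +
      pderiv j (fun y => G y i l) z - pderiv l (fun y => G y i j) z)) x| ≤ 8 * (η / s ^ 2) := by
    intro l
    rw [pd_mul a (d2 l) (d3 l), pd_sub a ((d1 _ _ _).fun_add (d1 _ _ _)) (d1 _ _ _),
      pd_add a (d1 _ _ _) (d1 _ _ _)]
    have b1 : |pderiv i (fun y => G y j l) x + pderiv j (fun y => G y i l) x -
        pderiv l (fun y => G y i j) x| ≤ 3 * (η / s) := by
      obtain ⟨a1, a2⟩ := abs_le.1 (jg_pd h hm1 hs i j l)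
      obtain ⟨a3, a4⟩ := abs_le.1 (jg_pd h hm1 hs j i l)
      obtain ⟨a5, a6⟩ := abs_le.1 (jg_pd h hm1 hs l i j)
      exact abs_le.2 ⟨by linarith, by linarith⟩
    have b2 : |pderiv a (pderiv i fun y => G y j l) x + pderiv a (pderiv j fun y => G y i l) x -
        pderiv a (pderiv l fun y => G y i j) x| ≤ 3 * (η / s ^ 2) := by
      obtain ⟨a1, a2⟩ := abs_le.1 (jg_pd2 hG hx h hm hs a i j l)
      obtain ⟨a3, a4⟩ := abs_le.1 (jg_pd2 hG hx h hm hs a j i l)
      obtain ⟨a5, a6⟩ := abs_le.1 (jg_pd2 hG hx h hm hs a l i j)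
      exact abs_le.2 ⟨by linarith, by linarith⟩
    have c1 := abs_mul_le (jg_pd_inv hG hx h hη hm1 hs a k l) b1
    have c2 := abs_mul_le (jg_inv_le hG hx h hη k l) b2
    have c3 : 64 * (η / s) * (3 * (η / s)) ≤ 2 * (η / s ^ 2) := by
      have : 64 * (η / s) * (3 * (η / s)) = 192 * η * (η / s ^ 2) := by field_simp; ring
      rw [this]; gcongr; linarith
    exact (abs_add_le _ _).trans (by linarith)
  have := sum4_le b
  linarith

theorem jg_riemann (h : JG m G x s η) (hη : η ≤ 1 / 100) (hm : 2 ≤ m) (hs : 0 < s)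
    (l k i j : Fin 4) : |riemann G x l k i j| ≤ 44 * (η / s ^ 2) := by
  have hm1 : 1 ≤ m := one_le_two.trans hm
  have hη0 := jg_nonneg h
  have c := jg_chr hG hx h hη hm1 hs
  obtain ⟨a1, a2⟩ := abs_le.1 (jg_pd_chr hG hx h hη hm hs i l j k)
  obtain ⟨a3, a4⟩ := abs_le.1 (jg_pd_chr hG hx h hη hm hs j l i k)
  have c3 : 12 * (η / s) * (12 * (η / s)) ≤ 3 / 2 * (η / s ^ 2) := by
    have : 12 * (η / s) * (12 * (η / s)) = 144 * η * (η / s ^ 2) := by field_simp; ring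
    rw [this]; gcongr; linarith
  have b : ∀ a, |christoffel G x l i a * christoffel G x a j k -
      christoffel G x l j a * christoffel G x a i k| ≤ 3 * (η / s ^ 2) := fun a =>
    (abs_sub _ _).trans (by linarith [abs_mul_le (c l i a) (c a j k), abs_mul_le (c l j a) (c a i k)])
  obtain ⟨a5, a6⟩ := abs_le.1 (sum4_le b)
  unfold riemann
  exact abs_le.2 ⟨by linarith, by linarith⟩

/-- `|Rm| ≤ C η / s²` -/
theorem jg_rm (h : JG m G x s η) (hη : η ≤ 1 / 100) (hm : 2 ≤ m) (hs : 0 < s) :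
    √(nsq G (rmT G) x) ≤ 30000 * (η / s ^ 2) := by
  have hη0 := jg_nonneg h
  have b : ∀ I, |rmT G x I| ≤ 4 * (2 * (44 * (η / s ^ 2))) := fun I =>
    sum4_le fun a => abs_mul_le (jg_ent_le h hη (I 0) a)
      (jg_riemann hG hx h hη hm hs a (I 1) (I 2) (I 3))
  rw [Real.sqrt_le_left (by positivity)]
  refine (jg_ipA hG hx h hη b).trans ?_
  nlinarith [sq_nonneg (η / s ^ 2)]

end Crest.Agent.N207.Rad

end
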