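import Crest.Agent.N207.Rad.Fam
import Crest.Agent.N207.NP.Defs

/-!
# Row 207, block P0 (helper89): the glued function is a neck function
-/

set_option autoImplicit false
set_option linter.dupNamespace false
set_option linter.unusedSectionVars false
open Set MeasureTheory Filter Topology
open scoped ContDiff Classical

noncomputable section

namespace Crest.Agent.N207.Rad

/-- the pointwise estimates on the neck -/
structure Est {M : Type*} [MeasurableSpace M] (H : HC M) (t : ℝ) (x : M) (ρ ε : ℝ) (b : M → ℝ)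
    (b' : ℝ) : Prop where
  v : |b x - ρ ^ 2| ≤ ε * ρ ^ 2
  g : |H.gam t b b x - 4 * b x| ≤ ε * ρ ^ 2
  l : |H.lap t b x - 8| ≤ ε
  d : |b'| ≤ ε

theorem est_static {M : Type*} [TopologicalSpace M] [CompactSpace M] [MeasurableSpace M] {H : HC M}
    (A : H.Alg) {t η r ε : ℝ} {z x : M} {β b : M → ℝ} (ht : t ∈ Ioo 0 H.T)
    (L : LocAt H t z η r β) (hη : η ≤ 1 / 100) (hr : 0 < r) (h1 : 3 / 10 * r ≤ H.d t z x)
    (h2 : H.d t z x ≤ 3 * r) (hb : H.S0 b) (hε : ε ≤ 1)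
    (h : Sz H t x (H.d t z x) (fun y => b y - β y) (ε * H.d t z x ^ 2)) :
    |b x - H.d t z x ^ 2| ≤ (11 * ε + 12 * η) * H.d t z x ^ 2 ∧
    |H.gam t b b x - 4 * b x| ≤ (11 * ε + 12 * η) * H.d t z x ^ 2 ∧
    |H.lap t b x - 8| ≤ 11 * ε + 12 * η := by
  obtain ⟨a1, a2, a3, -⟩ := L.mid x (by linarith) (by linarith)
  set ρ := H.d t z x
  have hρ : 0 < ρ := by linarith
  have hρ2 : 0 < ρ ^ 2 := by positivity
  have hη0 : 0 ≤ η := (abs_nonneg _).trans a3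
  have hε0 : 0 ≤ ε := nonneg_of_mul_nonneg_left h.nn hρ2
  have hrr : η * r ^ 2 ≤ 12 * (η * ρ ^ 2) := by
    have : r ^ 2 ≤ 12 * ρ ^ 2 := by nlinarith
    nlinarith
  have hu := h.s0
  obtain ⟨v1, v2⟩ := abs_le.1 h.v
  obtain ⟨b1, b2⟩ := abs_le.1 a1
  obtain ⟨c1, c2⟩ := abs_le.1 a2
  have p1 : 0 ≤ ε * ρ ^ 2 := h.nn
  have p2 : 0 ≤ η * ρ ^ 2 := by positivity
  refine ⟨abs_le.2 ⟨by nlinarith, by nlinarith⟩, ?_, ?_⟩
  · have e : b = fun y => (b y - β y) + β y := by funext y; ring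
    have e2 : H.gam t b b x = H.gam t (fun y => b y - β y) (fun y => b y - β y) x +
        2 * H.gam t (fun y => b y - β y) β x + H.gam t β β x := by
      conv_lhs => rw [e]
      rw [A.gam_add t ht hu L.s0 (A.s0_add hu L.s0), A.gam_add' ht hu L.s0 hu,
        A.gam_add' ht hu L.s0 L.s0, A.gam_symm t ht L.s0 hu]
      ring
    have g1 : √(H.gam t (fun y => b y - β y) (fun y => b y - β y) x) ≤ ε * ρ := by
      refine h.g.trans (le_of_eq ?_); field_simp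
    have g2 : √(H.gam t β β x) ≤ 3 * ρ := by
      rw [Real.sqrt_le_left (by positivity)]
      have : η * ρ ^ 2 ≤ 1 / 100 * ρ ^ 2 := by gcongr
      nlinarith
    have g3 := (A.abs_gam_le ht hu L.s0 x).trans
      (mul_le_mul g1 g2 (Real.sqrt_nonneg _) (by positivity))
    obtain ⟨g4, g5⟩ := abs_le.1 g3
    have g6 := A.gam_nonneg t ht hu x
    have g7 : H.gam t (fun y => b y - β y) (fun y => b y - β y) x ≤ ε * ρ ^ 2 := by
      rw [Real.sqrt_le_left (by positivity)] at g1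
      have : (ε * ρ) ^ 2 = ε * (ε * ρ ^ 2) := by ring
      nlinarith
    rw [e2]
    exact abs_le.2 ⟨by nlinarith, by nlinarith⟩
  · have l1 := h.l
    rw [A.lap_sub ht hb L.s0, mul_div_assoc, div_self hρ2.ne', mul_one] at l1
    obtain ⟨l2, l3⟩ := abs_le.1 l1
    obtain ⟨l4, l5⟩ := abs_le.1 a3
    exact abs_le.2 ⟨by linarith, by linarith⟩

theorem fam_est : ∃ C : ℝ, 1 ≤ C ∧ ∀ {M : Type*} [TopologicalSpace M] [CompactSpace M]
    [MeasurableSpace M] {H : HC M}, H.Alg → H.Evo → H.Dist → HhSub H →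
    ∀ {t0 r0 e : ℝ} {a : ℝ → ℝ} {z : ℝ → M} {β : ℕ × ℕ → M → ℝ}, Fam H t0 r0 (e ^ 2) a z β →
    0 < e → C * e ≤ 1 → ∀ t ∈ Ico t0 H.T, ∀ x, a t ≤ H.d t (z t) x → H.d t (z t) x ≤ 2 * r0 →
    Est H t x (H.d t (z t) x) (C * e) (gb H.T t0 r0 a β t) (gb' H.T t0 r0 a β t x) := by
  obtain ⟨L, hL, hw⟩ := sz_weight.{_}
  obtain ⟨C1, hC1, hd⟩ := sz_diff.{_}
  obtain ⟨K, hK, hb⟩ := bmp_deriv_bdd
  set C2 := 32 * (25 * L * (1 + 25 * L + (25 * L) ^ 2)) * C1 with hC2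
  have hC2p : 0 < C2 := by positivity
  refine ⟨11 * C2 + 12 + 25 * (K * 288 * (C1 + C2)), by nlinarith [mul_pos (by linarith : 0 < K) (by linarith : 0 < C1 + C2)], ?_⟩
  intro M _ _ _ H A Ev D hs t0 r0 e a z β F he hCe t ht x hx1 hx2
  have hKC : 0 < K * 288 * (C1 + C2) := by positivity
  have he1 : e ≤ 1 / 10 := by nlinarith
  have htI := F.mem ht
  have ha := F.sc.pos t ht
  set ρ := H.d t (z t) x with hρd
  have hρ : 0 < ρ := ha.trans_le hx1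
  obtain ⟨S, hS⟩ := F.cov1 ht
  let al : ℕ × ℕ → Prop := fun i => (Val H.T t0 r0 a i ∧ |tau t0 r0 i t| ≤ 2) ∧
    3 / 10 * rj r0 i.1 ≤ ρ ∧ ρ ≤ 3 * rj r0 i.1
  have hN : ((S.filter al).card : ℝ) ≤ 25 := by
    have := card_alive (t0 := t0) (t := t) (ρ := ρ) F.r0_pos (S.filter al) fun i hi =>
      have hi' : al i := (Finset.mem_filter.1 hi).2
      ⟨hi'.1.2, hi'.2⟩
    exact_mod_cast this
  have hdead : ∀ i, ¬ al i → (Val H.T t0 r0 a i ∧ |tau t0 r0 i t| ≤ 2) →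
      wS H.T t0 r0 a β i =ᶠ[𝓝 x] fun _ => 0 := by
    intro i hi hv
    have hc := (D.cont t htI (z t)).continuousAt (x := x)
    have hp := rj_pos F.r0_pos i.1
    rcases lt_or_ge ρ (3 / 10 * rj r0 i.1) with c | c
    · filter_upwards [hc.eventually (gt_mem_nhds c)] with y hy
      by_contra hne
      rcases (F.alive ht hv.1 hv.2 hne).2 with e1 | e1
      · have := e1 t ht hv.2
        rw [rj_succ] at this; linarith
      · linarith
    · have c2 : 3 * rj r0 i.1 < ρ := not_le.1 fun e1 => hi ⟨hv, c, e1⟩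
      filter_upwards [hc.eventually (lt_mem_nhds c2)] with y hy
      by_contra hne
      rcases (F.alive ht hv.1 hv.2 hne).1 with e1 | e1
      · rw [e1, rj_zero] at c2; linarith [F.r0_pos]
      · linarith
  have hPs : ∀ i, H.S0 (wP H.T t0 r0 a β i t) := fun i => A.s0_cmul _ (F.wS_s0 A i)
  obtain ⟨i0, v0, τ0, u0, l0, -⟩ := F.plateau ht x
  have hp0 := rj_pos F.r0_pos i0.1
  have al1 : 3 / 10 * rj r0 i0.1 ≤ ρ := by
    rcases l0 with e1 | e1
    · have := e1 t ht τ0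
      rw [rj_succ] at this; linarith
    · linarith
  have al2 : ρ ≤ 3 * rj r0 i0.1 := by
    rcases u0 with e1 | e1
    · rw [e1, rj_zero]; linarith [F.r0_pos]
    · linarith
  have L0 := F.loc i0 v0 t ht τ0
  have hdiff : ∀ i, al i → Sz H t x ρ (fun y => β i y - β i0 y) (C1 * e * ρ ^ 2) := fun i hi =>
    hd A Ev D hs htI (F.loc i hi.1.1 t ht hi.1.2) L0 he he1 (rj_pos F.r0_pos _) hp0 hi.2.1 hi.2.2
      al1 al2
  have hW1 := F.one_le ht hS
  have key := sz_glue A htI hρ S al (p := fun i => wP H.T t0 r0 a β i t) (β := β) (β0 := β i0)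
    hN (by linarith : 0 ≤ L) (by positivity : 0 ≤ C1 * e * ρ ^ 2) (fun i _ => F.s0 i) (F.s0 i0)
    (fun i _ hi => by
      by_cases hv : Val H.T t0 r0 a i ∧ |tau t0 r0 i t| ≤ 2
      · refine sz_zero A htI (hPs i) ?_
        filter_upwards [hdead i hi hv] with y hy
        rw [wP, hy, mul_zero]
      · exact sz_zero A htI (hPs i) (Eventually.of_forall fun y => (wP_zero hv y).1))
    (fun i _ hi => by
      have s1 := hw A htI (F.loc i hi.1.1 t ht hi.1.2) F.η_le (rj_pos F.r0_pos _) hi.2.1 hi.2.2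
        (i.1 = 0) (Bot H.T t0 r0 a i)
      have s2 := s1.cmul A htI (bmp (tau t0 r0 i t))
      have e1 : wP H.T t0 r0 a β i t = fun y => bmp (tau t0 r0 i t) *
          cW (i.1 = 0) (Bot H.T t0 r0 a i) (β i y / rj r0 i.1 ^ 2) := by
        funext y; rw [wP, wS, if_pos hi.1.1]
      rw [e1]
      refine s2.mono hρ ?_
      rw [abs_of_nonneg (bmp_nonneg _)]
      nlinarith [bmp_le (tau t0 r0 i t)])
    (fun i _ hi => hdiff i hi) (fun y => one_pos.trans_le (hW1 y)) (hW1 x)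
  have eb : (fun y => (∑ i ∈ S, wP H.T t0 r0 a β i t y * β i y) /
      (∑ i ∈ S, wP H.T t0 r0 a β i t y) - β i0 y) = fun y => gb H.T t0 r0 a β t y - β i0 y := by
    funext y; rw [hS.gb]
  rw [eb, show 32 * (25 * L * (1 + 25 * L + (25 * L) ^ 2)) * (C1 * e * ρ ^ 2) = C2 * e * ρ ^ 2 by
    rw [hC2]; ring] at key
  have hbS : H.S0 (gb H.T t0 r0 a β t) :=
    A.sm_s0 (F.gb_sm A ht.1 le_rfl ht.2) t ⟨le_rfl, le_rfl⟩
  obtain ⟨r1, r2, r3⟩ := est_static A htI L0 F.η_le hp0 al1 al2 hbS (ε := C2 * e) (by nlinarith) key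
  have hle : 11 * (C2 * e) + 12 * e ^ 2 ≤ (11 * C2 + 12 + 25 * (K * 288 * (C1 + C2))) * e := by
    nlinarith [mul_pos hKC he]
  refine ⟨r1.trans (by gcongr), r2.trans (by gcongr), r3.trans hle, ?_⟩
  rw [hS.gb', abs_div, abs_of_pos (one_pos.trans_le (hW1 x))]
  refine (div_le_self (abs_nonneg _) (hW1 x)).trans ((Finset.abs_sum_le_sum_abs _ _).trans ?_)
  have hterm : ∀ i ∈ S, |wP' H.T t0 r0 a β i t x * (β i x - gb H.T t0 r0 a β t x)| ≤
      if al i then K * 288 * (C1 + C2) * e else 0 := by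
    intro i _
    by_cases hi : al i
    · rw [if_pos hi, abs_mul, wP', abs_mul, abs_mul, abs_of_nonneg (wS_nonneg i x)]
      have hp := rj_pos F.r0_pos i.1
      have q1 : |β i x - gb H.T t0 r0 a β t x| ≤ (C1 + C2) * e * ρ ^ 2 := by
        obtain ⟨c1, c2⟩ := abs_le.1 (hdiff i hi).v
        obtain ⟨c3, c4⟩ := abs_le.1 key.v
        exact abs_le.2 ⟨by linarith, by linarith⟩
      have q2 : ρ ^ 2 ≤ 9 * rj r0 i.1 ^ 2 := by nlinarith [hi.2.2]
      have q3 := hb (tau t0 r0 i t)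
      have q4 := wS_le (T := H.T) (t0 := t0) (r0 := r0) (a := a) (β := β) i x
      have q5 := wS_nonneg (T := H.T) (t0 := t0) (r0 := r0) (a := a) (β := β) i x
      rw [abs_of_pos (show 0 < 32 / rj r0 i.1 ^ 2 by positivity)]
      calc _ ≤ K * (32 / rj r0 i.1 ^ 2) * 1 * ((C1 + C2) * e * (9 * rj r0 i.1 ^ 2)) := by
            gcongr
            exact q1.trans (by gcongr)
        _ = _ := by field_simp; ring
    · rw [if_neg hi]
      by_cases hv : Val H.T t0 r0 a i ∧ |tau t0 r0 i t| ≤ 2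
      · rw [wP', (hdead i hi hv).eq_of_nhds]; simp
      · rw [(wP_zero hv x).2]; simp
  refine (Finset.sum_le_sum hterm).trans ?_
  rw [← Finset.sum_filter, Finset.sum_const, nsmul_eq_mul]
  have : ((S.filter al).card : ℝ) * (K * 288 * (C1 + C2) * e) ≤ 25 * (K * 288 * (C1 + C2) * e) := by
    gcongr
  nlinarith

/-- the input: static radial functions at every admissible time and scale -/
structure RadIn {M : Type*} [TopologicalSpace M] [MeasurableSpace M] (H : HC M) (t0 r0 η : ℝ)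
    (a : ℝ → ℝ) (z : ℝ → M) : Prop where
  t0_pos : 0 < t0
  r0_pos : 0 < r0
  sc : Sc H.T t0 r0 a
  loc : ∀ s ∈ Ico t0 H.T, ∀ r, a s ≤ r → r ≤ r0 → ∃ β : M → ℝ, H.S0 β ∧ (∀ x, 0 < β x) ∧
    ∀ t ∈ Ico t0 H.T, |t - s| ≤ r ^ 2 → LocAt H t (z t) η r β

/-- the output -/
structure RadOut {M : Type*} [TopologicalSpace M] [CompactSpace M] [MeasurableSpace M] (H : HC M)
    (t0 r0 del : ℝ) (a : ℝ → ℝ) (z : ℝ → M) (b b' : ℝ → M → ℝ) : Prop where
  nk : ∀ s0 s1, t0 ≤ s0 → s0 < s1 → s1 < H.T → NP.Nk H s0 s1 (4 * a s0 ^ 2) (r0 ^ 2) del b b'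
  inn : ∀ t ∈ Ico t0 H.T, ∀ x, H.d t (z t) x ≤ a t → b t x ≤ 2 * a t ^ 2
  out : ∀ t ∈ Ico t0 H.T, ∀ x, 2 * r0 ≤ H.d t (z t) x → 3 * r0 ^ 2 ≤ b t x
  mid : ∀ t ∈ Ico t0 H.T, ∀ x, a t ≤ H.d t (z t) x → H.d t (z t) x ≤ 2 * r0 →
    |b t x - H.d t (z t) x ^ 2| ≤ del * H.d t (z t) x ^ 2

/-- P0 on the scalar calculus -/
theorem rad_main {del : ℝ} (hdel : 0 < del) : ∃ η : ℝ, 0 < η ∧ ∀ {M : Type*} [TopologicalSpace M]
    [CompactSpace M] [MeasurableSpace M] {H : HC M}, H.Alg → H.Evo → H.Dist → HhSub H →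
    ∀ {t0 r0 : ℝ} {a : ℝ → ℝ} {z : ℝ → M}, RadIn H t0 r0 η a z →
    ∃ b b' : ℝ → M → ℝ, RadOut H t0 r0 del a z b b' := by
  obtain ⟨C, hC, hest⟩ := fam_est.{_}
  set e := min del (1 / 10) / C with hed
  have hm : 0 < min del (1 / 10) := lt_min hdel (by norm_num)
  have he : 0 < e := by positivity
  have hCe : C * e = min del (1 / 10) := by rw [hed]; field_simp
  have hCe1 : C * e ≤ del := hCe ▸ min_le_left _ _
  have hCe2 : C * e ≤ 1 / 10 := hCe ▸ min_le_right _ _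
  have he1 : e ≤ 1 / 10 := by nlinarith
  refine ⟨e ^ 2, by positivity, ?_⟩
  intro M _ _ _ H A Ev D hs t0 r0 a z R
  have h1 : ∀ i : ℕ × ℕ, ∃ β : M → ℝ, H.S0 β ∧ (∀ x, 0 < β x) ∧ (Val H.T t0 r0 a i →
      ∀ t ∈ Ico t0 H.T, |tau t0 r0 i t| ≤ 2 → LocAt H t (z t) (e ^ 2) (rj r0 i.1) β) := by
    intro i
    by_cases hv : Val H.T t0 r0 a i
    · obtain ⟨s, hsI, has, hw⟩ := hv
      obtain ⟨β, b1, b2, b3⟩ := R.loc s hsI _ has (rj_le_r0 R.r0_pos i.1)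
      exact ⟨β, b1, b2, fun _ t ht hτ => b3 t ht (hw t hτ)⟩
    · exact ⟨fun _ => 1, A.s0_const 1, fun _ => one_pos, fun h => (hv h).elim⟩
  choose β b1 b2 b3 using h1
  have F : Fam H t0 r0 (e ^ 2) a z β := ⟨R.t0_pos, R.r0_pos, by nlinarith, R.sc, b1, b2, b3⟩
  have hE := hest A Ev D hs F he (by linarith)
  have hreg : ∀ s0, t0 ≤ s0 → ∀ t ∈ Ico s0 H.T, ∀ x, 4 * a s0 ^ 2 ≤ gb H.T t0 r0 a β t x →
      gb H.T t0 r0 a β t x ≤ r0 ^ 2 → Est H t x (H.d t (z t) x) (C * e) (gb H.T t0 r0 a β t)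
        (gb' H.T t0 r0 a β t x) := by
    intro s0 h0 t ht x c1 c2
    have ht' : t ∈ Ico t0 H.T := ⟨h0.trans ht.1, ht.2⟩
    have ha := R.sc.pos t ht'
    have ha2 := R.sc.anti ⟨h0, ht.1.trans_lt ht.2⟩ ht' ht.1
    refine hE t ht' x (le_of_not_ge fun c => ?_) (le_of_not_ge fun c => ?_)
    · have := F.gb_inn ht' (HC.Alg.d_nonneg D (F.mem ht') _ _) c
      nlinarith
    · have := F.gb_out ht' c
      nlinarith [R.r0_pos]
  refine ⟨gb H.T t0 r0 a β, gb' H.T t0 r0 a β, fun s0 s1 h0 h01 h1 => ?_,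
    fun t ht x hx => F.gb_inn ht (HC.Alg.d_nonneg D (F.mem ht) _ _) hx, fun t ht x hx => F.gb_out ht hx,
    fun t ht x c1 c2 => (hE t ht x c1 c2).v.trans (by gcongr)⟩
  refine ⟨⟨R.t0_pos.trans_le h0, h01, h1⟩, F.gb_sm A h0 h01.le h1, F.gb_dt h0 h01.le h1,
    fun t ht x => F.gb_pos ⟨h0.trans ht.1, ht.2.trans_lt h1⟩ x, fun t ht x c1 c2 => ?_,
    fun t ht x c1 c2 => (hreg s0 h0 t ⟨ht.1, ht.2.trans_lt h1⟩ x c1 c2).l.trans hCe1,
    fun t ht x c1 c2 => (hreg s0 h0 t ⟨ht.1, ht.2.trans_lt h1⟩ x c1 c2).d.trans hCe1⟩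
  have E := hreg s0 h0 t ⟨ht.1, ht.2.trans_lt h1⟩ x c1 c2
  have v := (abs_le.1 E.v).1
  have q : H.d t (z t) x ^ 2 ≤ 2 * gb H.T t0 r0 a β t x := by nlinarith [sq_nonneg (H.d t (z t) x)]
  have q0 := F.gb_pos ⟨h0.trans ht.1, ht.2.trans_lt h1⟩ x
  refine E.g.trans ?_
  calc C * e * H.d t (z t) x ^ 2 ≤ del * (2 * gb H.T t0 r0 a β t x) := by gcongr
    _ ≤ _ := by nlinarith

end Crest.Agent.N207.Rad

end
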