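import Crest.Agent.N207.Rad.Neck2
import Crest.Agent.N207.Rad.Main
import Crest.Agent.N207.NP.St

/-!
# Row 207, block P0 (helper89): `NP.RAD`
-/

set_option autoImplicit false
set_option linter.unusedSectionVars false

open scoped ContDiff Topology Manifold Classical
open Set Filter MeasureTheory
open Crest.GeometryTopology.CoordMetric Crest.GeometryTopology.ChartCurvature
  Crest.GeometryTopology.MetricFamily

noncomputable section

namespace Crest.Agent.N207.Rad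

open Sk

variable {M : Type*} [TopologicalSpace M] [ChartedSpace E4 M] [IsManifold 𝓘(ℝ, E4) ∞ M]
  [T3Space M] [ConnectedSpace M] [MeasurableSpace M] [BorelSpace M] [CompactSpace M]

/-- the index of the interval that contains `t` -/
def idx (τ : TopD M) (t : ℝ) : ℕ := if h : ∃ n, t < τ.t (n + 1) then Nat.find h else 0

/-- a centre -/
def cen (τ : TopD M) (t : ℝ) : M :=
  if h : (τ.N t).In.Nonempty then h.choose else (τ.N t).Ψ 0

variable {F : Flow M} {τ : TopD M} {m : ℕ} {η V : ℝ} {Cs : ℕ → ℝ} (h : τ.Ok F m η Cs V)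
include h

theorem lam_pos (n : ℕ) : 0 < τ.lam n := div_pos h.l0_pos (pow_pos (by linarith [h.K_ge]) n)

theorem lam_succ (n : ℕ) : τ.lam n = τ.K * τ.lam (n + 1) := by
  have : τ.K ≠ 0 := by linarith [h.K_ge]
  unfold TopD.lam; rw [pow_succ]; field_simp

theorem lam_anti : Antitone τ.lam := antitone_nat_of_succ_le fun n => by
  rw [lam_succ h n]; nlinarith [lam_pos h (n + 1), h.K_ge]

theorem t_mono : StrictMono τ.t := strictMono_nat_of_lt_succ fun n => by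
  have := h.d_ge n
  have := mul_pos h.c_pos (lam_pos h n)
  unfold TopD.d at *; linarith

theorem lam_small {ε : ℝ} (hε : 0 < ε) : ∃ n, τ.lam n ≤ ε := by
  obtain ⟨n, hn⟩ := pow_unbounded_of_one_lt (τ.l0 / ε) (show 1 < τ.K by linarith [h.K_ge])
  refine ⟨n, ?_⟩
  rw [TopD.lam, div_le_iff₀ (pow_pos (by linarith [h.K_ge]) n)]
  rw [div_lt_iff₀ hε] at hn
  linarith

theorem idx_mem {t : ℝ} (h0 : τ.t 0 ≤ t) (h1 : t < F.T) : t ∈ τ.I (idx τ t) := by
  have e : ∃ n, t < τ.t (n + 1) :=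
    ((tendsto_add_atTop_iff_nat 1).2 h.lim).eventually (lt_mem_nhds h1) |>.exists
  rw [idx, dif_pos e]
  refine ⟨?_, Nat.find_spec e⟩
  rcases hn : Nat.find e with _ | k
  · exact h0
  · exact not_lt.1 (Nat.find_min e (hn ▸ Nat.lt_succ_self k))

theorem I_le {t t' : ℝ} {n n' : ℕ} (ht : t ∈ τ.I n) (ht' : t' ∈ τ.I n') (htt : t ≤ t') : n ≤ n' :=
  Nat.lt_succ_iff.1 ((t_mono h).lt_iff_lt.1 (ht.1.trans_lt (htt.trans_lt ht'.2)))

theorem I_sub {t : ℝ} {n : ℕ} (ht : t ∈ τ.I n) : τ.t 0 ≤ t ∧ t < F.T :=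
  ⟨((t_mono h).monotone (Nat.zero_le n)).trans ht.1, ht.2.trans (h.lt _)⟩

theorem idx_eq {t : ℝ} {n : ℕ} (ht : t ∈ τ.I n) : idx τ t = n := by
  have := idx_mem h (I_sub h ht).1 (I_sub h ht).2
  exact le_antisymm (I_le h this ht le_rfl) (I_le h ht this le_rfl)

theorem cen_mem {t : ℝ} {n : ℕ} (ht : t ∈ τ.I n) : cen τ t ∈ (τ.N t).In := by
  have := (h.top n t ht).ne
  rw [cen, dif_pos this]; exact this.choose_spec

omit h in
theorem wt_arith {l R c d e η s r y : ℝ} (he : 0 < e) (hR : 0 < R) (hc : 0 < c) (hs : 0 < s)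
    (hη : η ≤ 1) (hd : 0 ≤ d) (p0 : 9 / e ^ 2 * l ≤ s) (p3 : 8 * r ≤ e ^ 2 / 9 * R)
    (p6 : d ≤ e / 3 * (c * s)) (y1 : s < y) (y2 : y < 8 * r) :
    η * (√(l / y) + √(y / R) + d / y / c) ≤ e := by
  have hy : 0 < y := hs.trans y1
  have w1 : √(l / y) ≤ e / 3 := by
    rw [Real.sqrt_le_left (by positivity), div_le_iff₀ hy]
    have := p0.trans y1.le
    rw [div_mul_eq_mul_div, div_le_iff₀ (by positivity)] at this
    linarith
  have w2 : √(y / R) ≤ e / 3 := by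
    rw [Real.sqrt_le_left (by positivity), div_le_iff₀ hR]
    linarith
  have w3 : d / y / c ≤ e / 3 := by
    rw [div_div, div_le_iff₀ (by positivity)]
    refine p6.trans (mul_le_mul_of_nonneg_left ?_ (by positivity))
    rw [mul_comm]; exact mul_le_mul_of_nonneg_right y1.le hc.le
  have w4 : 0 ≤ √(l / y) + √(y / R) + d / y / c := by positivity
  exact (mul_le_mul_of_nonneg_right hη w4).trans (by linarith)

omit h in
theorem par_arith {e θ c r R l K : ℝ} (he : 0 < e) (he1 : e ≤ 1 / 10000) (hθ : 0 < θ)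
    (hθe : θ ≤ e) (hc : 0 < c) (hR : 0 < R) (hR1 : R ≤ 1) (hl : 0 < l) (hr : 0 < r) (hK : 4 ≤ K)
    (q2 : r ≤ e ^ 2 / 72 * R) (q3 : r ≤ e * θ * c / 3) (p0 : (9 / e ^ 2 + K ^ 2) * l ≤ θ * r) :
    K ^ 2 * l ≤ θ * r ∧ 9 / e ^ 2 * l ≤ θ * r ∧ l < θ * r ∧ 8 * r ≤ e ^ 2 / 9 * R ∧ 8 * r ≤ R ∧
      θ * r ≤ r / 10000 ∧ r ^ 2 ≤ e / 3 * (c * (θ * r)) ∧ r ^ 2 ≤ c * (θ * r) ∧ r ^ 2 ≤ 1 := by
  have h9 : 0 < 9 / e ^ 2 * l := by positivity
  have hK2 : 16 ≤ K ^ 2 := by nlinarith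
  have hK3 := mul_le_mul_of_nonneg_right hK2 hl.le
  have e2 : e ^ 2 ≤ 1 := by nlinarith
  have e3 := mul_le_mul_of_nonneg_right e2 hR.le
  have p6 : r ^ 2 ≤ e / 3 * (c * (θ * r)) := by nlinarith
  have p7 : 0 ≤ c * (θ * r) := by positivity
  refine ⟨by linarith, by linarith, by linarith, by linarith, by linarith, by nlinarith, p6,
    by nlinarith, by nlinarith⟩

/-- the restricted necks are rough for a parabolic time and contain the centres -/
theorem exists_sand (hB : Base F) (hD : DIST F) (hm : 1 ≤ m) (hη : η ≤ 1) {e : ℝ} (he : 0 < e)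
    (he1 : e ≤ 1 / 10000) : ∃ (θ A r0 K : ℝ) (n0 : ℕ), 0 < θ ∧ 1 ≤ A ∧ 0 < r0 ∧ 1 ≤ K ∧
      K * θ = e ∧ A * τ.lam n0 ≤ r0 ∧ ∀ n, n0 ≤ n → ∀ u ∈ τ.I n, ∀ r, A * τ.lam n ≤ r → r ≤ r0 →
        τ.lam n < θ * r ∧ 8 * r ≤ τ.R ∧ ((τ.N u).res (θ * r) (8 * r)).Top ∧
        ∀ t ∈ Ico (τ.t n0) F.T, |t - u| ≤ r ^ 2 →
          Sand (F.m t) ((τ.N u).res (θ * r) (8 * r)) (cen τ t) e K ∧
          ∀ x ∈ shell (θ * r) (8 * r), JG 1 ((F.m t).pm (τ.N u).Ψ) x ‖x‖ e := by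
  obtain ⟨KR, hKR⟩ := hB.ok.evo.R_bd
  obtain ⟨K, r1, hK, hr1, hd⟩ := hD (Real.exp |KR| * (max V 0 * 16))
  have hKτ := h.K_ge
  have hc := h.c_pos
  have hc1 := h.c_le
  have hR : 0 < τ.R := lt_of_lt_of_le (by have := h.l0_pos; positivity) h.l0_le
  obtain ⟨θ, hθ, hKθ⟩ : ∃ θ : ℝ, 0 < θ ∧ K * θ = e := ⟨e / K, by positivity, by field_simp⟩
  have hθe : θ ≤ e := by nlinarith
  obtain ⟨A, hA, hAθ⟩ : ∃ A : ℝ, 1 ≤ A ∧ A * θ = 9 / e ^ 2 + τ.K ^ 2 := by
    refine ⟨(9 / e ^ 2 + τ.K ^ 2) / θ, ?_, by field_simp⟩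
    have h9 : 0 < 9 / e ^ 2 := by positivity
    rw [le_div_iff₀ hθ]; nlinarith
  obtain ⟨r0, hr0, q1, q2, q3⟩ : ∃ r0 : ℝ, 0 < r0 ∧ r0 ≤ r1 / 8 ∧ r0 ≤ e ^ 2 / 72 * τ.R ∧
      r0 ≤ e * θ * τ.c / 3 :=
    ⟨min (min (r1 / 8) (e ^ 2 / 72 * τ.R)) (e * θ * τ.c / 3), by positivity,
      (min_le_left _ _).trans (min_le_left _ _), (min_le_left _ _).trans (min_le_right _ _),
      min_le_right _ _⟩
  obtain ⟨n0, hn0⟩ := lam_small h (lt_min (div_pos hr0 (by linarith : 0 < A))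
    (show 0 < θ ^ 2 * τ.c / τ.K ^ 3 by positivity))
  refine ⟨θ, A, r0, K, n0, hθ, hA, hr0, hK, hKθ, ?_, fun n hn u hu r h1 h2 => ?_⟩
  · have := hn0.trans (min_le_left _ _)
    rwa [le_div_iff₀ (by linarith), mul_comm] at this
  have hl := lam_pos h n
  have hr : 0 < r := lt_of_lt_of_le (by positivity) h1
  have p0 : (9 / e ^ 2 + τ.K ^ 2) * τ.lam n ≤ θ * r := by
    rw [← hAθ, mul_right_comm, mul_comm]; exact mul_le_mul_of_nonneg_left h1 hθ.le
  obtain ⟨p1, p1', p2, p3, p4, p5, p6, p8, p9⟩ := par_arith he he1 hθ hθe hc hR h.R_le hl hr hKτ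
    (h2.trans q2) (h2.trans q3) p0
  have hθr := mul_pos hθ hr
  have hN := h.top n u hu
  have hT : ((τ.N u).res (θ * r) (8 * r)).Top :=
    res_top hN (by rw [h.a_eq n u hu]; exact p2) (by linarith) (by rw [h.b_eq n u hu]; exact p4)
  refine ⟨p2, p4, hT, fun t ht htu => ?_⟩
  have ht0 : τ.t 0 ≤ t := ((t_mono h).monotone (Nat.zero_le _)).trans ht.1
  have htI := idx_mem h ht0 ht.2
  have p7 : |t - u| ≤ τ.c * (θ * r) := htu.trans p8
  have hJ : ∀ x ∈ shell (θ * r) (8 * r), JG m ((F.m t).pm (τ.N u).Ψ) x ‖x‖ e := by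
    intro x hx
    refine jg_mono (h.far n u hu (θ * r) p2 (by linarith) t ht0 ht.2 p7 x
      ⟨hx.1, hx.2.trans_le p4⟩).1 le_rfl ?_
    exact wt_arith he hR hc hθr hη (abs_nonneg _) p1' p3 (htu.trans p6) hx.1 hx.2
  refine ⟨?_, fun x hx => jg_mono (hJ x hx) hm le_rfl⟩
  have hu0 := I_sub h hu
  have hTp := F.hT
  have hvol : (F.m t).vol.real ((τ.N u).res (θ * r) (8 * r)).In ≤
      Real.exp |KR| * (max V 0 * 16) * (θ * r) ^ 4 := by
    have uI : u ∈ Ioo 0 F.hc.T := ⟨by linarith [h.t0, hu0.1], hu0.2⟩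
    have tI : t ∈ Ioo 0 F.hc.T := ⟨by linarith [h.t0], ht.2⟩
    have v1 := h.vol n u hu u le_rfl (by linarith [mul_pos hc hl]) hu0.2 (2 * (θ * r))
      ⟨by linarith, by linarith⟩
    have v2 := hB.ok.int.vol_le (K := |KR|) (fun s hs x => (hKR s hs x).trans (le_abs_self _))
      u uI t tI ((τ.N u).Om (2 * (θ * r)))
    have := hB.ok.int.fin u uI
    have := hB.ok.int.fin t tI
    have v3 : (F.m t).vol.real ((τ.N u).Om (2 * (θ * r))) ≤
        Real.exp (|KR| * |t - u|) * (F.m u).vol.real ((τ.N u).Om (2 * (θ * r))) := by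
      have := ENNReal.toReal_mono (by
        rw [Measure.smul_apply]
        exact ENNReal.mul_ne_top ENNReal.ofReal_ne_top (measure_ne_top _ _)) v2
      rwa [Measure.smul_apply, smul_eq_mul, ENNReal.toReal_mul,
        ENNReal.toReal_ofReal (Real.exp_pos _).le] at this
    have v4 : Real.exp (|KR| * |t - u|) ≤ Real.exp |KR| := by
      exact Real.exp_le_exp.2 (mul_le_of_le_one_right (abs_nonneg KR) (htu.trans p9))
    have v5 : (F.m t).vol.real ((τ.N u).res (θ * r) (8 * r)).In ≤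
        (F.m t).vol.real ((τ.N u).Om (2 * (θ * r))) :=
      measureReal_mono (μ := F.hc.vol t) (res_in_sub (by linarith))
    calc _ ≤ Real.exp |KR| * (max V 0 * (2 * (θ * r)) ^ 4) :=
          v5.trans (v3.trans (mul_le_mul v4 (v1.trans (by gcongr; exact le_max_left _ _))
            measureReal_nonneg (Real.exp_pos _).le))
      _ = _ := by ring
  have hK' : τ.K * τ.lam (idx τ t) ≤ θ * r := by
    rcases le_or_gt n (idx τ t + 1) with c | c
    · have := lam_anti h c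
      rw [lam_succ h (idx τ t), ← mul_assoc, ← sq]
      exact (mul_le_mul_of_nonneg_left this (sq_nonneg _)).trans p1
    · have hn0' : n0 ≤ idx τ t := I_le h ⟨le_rfl, t_mono h (Nat.lt_succ_self _)⟩ htI ht.1
      have c1 := (lam_anti h hn0').trans (hn0.trans (min_le_right _ _))
      have c2 := h.d_ge (idx τ t + 1)
      have c3 : τ.t (idx τ t + 1 + 1) ≤ u := ((t_mono h).monotone c).trans hu.1
      have c4 : τ.c * τ.lam (idx τ t + 1) ≤ r ^ 2 := by
        have := (abs_le.1 htu).1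
        have := htI.2
        unfold TopD.d at c2; linarith
      have c5 := lam_pos h (idx τ t + 1)
      rw [le_div_iff₀ (by positivity), lam_succ h (idx τ t)] at c1
      rw [lam_succ h (idx τ t)]
      refine abs_le_of_sq_le_sq' ?_ (by positivity) |>.2
      calc (τ.K * (τ.K * τ.lam (idx τ t + 1))) ^ 2
          = (τ.K * τ.lam (idx τ t + 1) * τ.K ^ 3) * τ.lam (idx τ t + 1) := by ring
        _ ≤ (θ ^ 2 * τ.c) * τ.lam (idx τ t + 1) := by gcongr
        _ = θ ^ 2 * (τ.c * τ.lam (idx τ t + 1)) := by ring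
        _ ≤ θ ^ 2 * r ^ 2 := by gcongr
        _ = _ := by ring
  have hz : cen τ t ∈ ((τ.N u).res (θ * r) (8 * r)).In :=
    om_sub_res_in ((h.cmp _ n t htI u hu (θ * r) hK' (le_trans (mul_le_mul_of_nonneg_right
      (le_self_pow₀ (by linarith) two_ne_zero) hl.le) p1) p7 (θ * r)
      ⟨le_rfl, by linarith⟩).1 (Or.inl (cen_mem h htI)))
  exact hd t ⟨h.t0.trans ht0, ht.2⟩ _ e hT ⟨fun x hx => jg_mono (hJ x hx) (Nat.zero_le _) le_rfl,
    hvol⟩ (by linarith) (show 8 * r ≤ r1 by linarith) (show 2 * (θ * r) ≤ 8 * r by linarith) _ hz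

omit h in
/-- block P0 -/
theorem rad (hB : Base F) (hD : DIST F) : NP.RAD F := by
  refine ⟨1, 1, one_pos, fun m η Cs V τ hm hη h δ hδ => ?_⟩
  obtain ⟨η1, hη1, hmain⟩ := rad_main.{_} (lt_min hδ (show (0 : ℝ) < 1 / 10 by norm_num))
  set e := min (η1 / 12800) (1 / 10000) with hed
  have he : 0 < e := lt_min (by positivity) (by norm_num)
  have he1 : e ≤ 1 / 10000 := min_le_right _ _
  have he2 : 12800 * e ≤ η1 := by linarith [min_le_left (η1 / 12800) (1 / 10000)]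
  obtain ⟨θ, A, r0, K, n0, hθ, hA, hr0, hK, hKθ, hn0, hs⟩ := exists_sand h hB hD hm hη he he1
  have hI : ∀ t ∈ Ico (τ.t n0) F.T, t ∈ τ.I (idx τ t) ∧ n0 ≤ idx τ t := fun t ht =>
    have := idx_mem h (((t_mono h).monotone (Nat.zero_le _)).trans ht.1) ht.2
    ⟨this, I_le h ⟨le_rfl, t_mono h (Nat.lt_succ_self _)⟩ this ht.1⟩
  have hA0 : 0 < A := by linarith
  have R : RadIn F.hc (τ.t n0) r0 η1 (fun t => A * τ.lam (idx τ t)) (cen τ) := by
    refine ⟨by linarith [h.t0, F.hT, (t_mono h).monotone (Nat.zero_le n0)], hr0,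
      ⟨fun t _ => mul_pos hA0 (lam_pos h _), fun t ht t' ht' c => ?_, fun t ht => ?_⟩,
      fun u hu r h1 h2 => ?_⟩
    · exact mul_le_mul_of_nonneg_left (lam_anti h (I_le h (hI t ht).1 (hI t' ht').1 c)) hA0.le
    · exact (mul_le_mul_of_nonneg_left (lam_anti h (hI t ht).2) hA0.le).trans hn0
    · obtain ⟨-, -, c3, c4⟩ := hs _ (hI u hu).2 u (hI u hu).1 r h1 h2
      have hr : 0 < r := (mul_pos hA0 (lam_pos h _)).trans_le h1
      have ha : K * ((τ.N u).res (θ * r) (8 * r)).a ≤ e * r := by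
        change K * (θ * r) ≤ _; rw [← mul_assoc, hKθ]
      have hθ1 : θ ≤ 1 / 10000 := by nlinarith
      refine ⟨radB ((τ.N u).res (θ * r) (8 * r)) r, radB_sm c3 hr (show θ * r < r / 7 by nlinarith)
        (show 7 * r < 8 * r by linarith), radB_pos c3 hr, fun t ht htu => ?_⟩
      exact (locAt_of_sand F c3 hr rfl he1 he hK ha (c4 t ht htu).1 (c4 t ht htu).2).mono he2
  obtain ⟨b, b', O⟩ := hmain hB.ok.alg hB.ok.evo hB.ok.dist (hhSub F) R
  have hmem : ∀ n, ∀ s ∈ τ.I (n0 + n), s ∈ Ico (τ.t n0) F.T := fun n s hs' =>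
    ⟨((t_mono h).monotone (Nat.le_add_right _ _)).trans hs'.1, (I_sub h hs').2⟩
  have hfact : ∀ n, ∀ s ∈ τ.I (n0 + n), ∀ r, A * τ.lam (n0 + n) ≤ r → r ≤ r0 →
      shell (θ * r) (8 * r) ⊆ shell (τ.lam (n0 + n)) τ.R ∧ θ * r < r ∧
      (∀ p, r / 4 ≤ F.hc.d s (cen τ s) p → F.hc.d s (cen τ s) p ≤ 4 * r →
        ∃ x ∈ shell (θ * r) (8 * r), (τ.N s).Ψ x = p) ∧
      ∀ x ∈ shell (θ * r) (8 * r), |F.hc.d s (cen τ s) ((τ.N s).Ψ x) - ‖x‖| ≤ r / 100 := by
    intro n s hs' r h1 h2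
    obtain ⟨c1, c2, c3, c4⟩ := hs _ (Nat.le_add_right _ _) s hs' r h1 h2
    have hr : 0 < r := (mul_pos hA0 (lam_pos h _)).trans_le h1
    obtain ⟨f1, f2, f3⟩ := (c4 s (hmem n s hs') (by simp [sq_nonneg])).1.facts c3 hr rfl he1 he hK
      (by change K * (θ * r) ≤ _; rw [← mul_assoc, hKθ])
    have hθ1 : θ ≤ 1 / 10000 := by nlinarith
    refine ⟨fun x hx => ⟨c1.trans hx.1, hx.2.trans_le c2⟩, by nlinarith, fun p p1 p2 => ?_,
      fun x hx => (f3 x hx).trans (by nlinarith)⟩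
    rcases cases_nk ((τ.N s).res (θ * r) (8 * r)) p with c | c | c
    · exact absurd (f1 p c) (not_lt.2 p1)
    · exact c
    · exact absurd (f2 p c) (not_lt.2 p2)
  have hcmp : ∀ {d y w r : ℝ}, 0 < r → r ≤ d → |d - y| ≤ r / 100 →
      |w - d ^ 2| ≤ min δ (1 / 10) * d ^ 2 → y ^ 2 / 2 ≤ w ∧ w ≤ 2 * y ^ 2 := by
    intro d y w r hr h1 h2 h3
    obtain ⟨c1, c2⟩ := abs_le.1 h2
    obtain ⟨c3, c4⟩ := abs_le.1 (h3.trans (mul_le_mul_of_nonneg_right (min_le_right _ _)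
      (sq_nonneg d)))
    constructor <;> nlinarith
  refine ⟨2 * A, r0, n0, b, fun _ => b', by linarith, hr0, fun n => ?_, fun n s hs' p p1 p2 => ?_,
    fun n s hs' x x1 x2 => ?_⟩
  · have := O.nk (τ.t (n0 + n)) (τ.t (n0 + n + 1)) ((t_mono h).monotone (Nat.le_add_right _ _))
      (t_mono h (Nat.lt_succ_self _)) (h.lt _)
    rw [idx_eq h (n := n0 + n) ⟨le_rfl, t_mono h (Nat.lt_succ_self _)⟩] at this
    exact this.mono (le_of_eq (by ring)) le_rfl (min_le_left _ _)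
  · have hs2 := hmem n s hs'
    have ha := mul_pos hA0 (lam_pos h (n0 + n))
    have d1 : A * τ.lam (n0 + n) ≤ F.hc.d s (cen τ s) p := le_of_not_ge fun c => by
      have := O.inn s hs2 p (by rw [idx_eq h hs']; exact c)
      rw [idx_eq h hs'] at this
      nlinarith
    have d2 : F.hc.d s (cen τ s) p ≤ 2 * r0 := le_of_not_ge fun c => by
      have := O.out s hs2 p c
      nlinarith
    have d3 := O.mid s hs2 p (by rw [idx_eq h hs']; exact d1) d2
    have a0 : A * τ.lam (n0 + n) ≤ r0 :=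
      (mul_le_mul_of_nonneg_left (lam_anti h (Nat.le_add_right _ _)) hA0.le).trans hn0
    obtain ⟨g1, -, g3, g4⟩ := hfact n s hs' (max (A * τ.lam (n0 + n)) (F.hc.d s (cen τ s) p / 2))
      (le_max_left _ _) (max_le a0 (by linarith))
    have m1 : max (A * τ.lam (n0 + n)) (F.hc.d s (cen τ s) p / 2) ≤ F.hc.d s (cen τ s) p :=
      max_le d1 (by linarith)
    have m2 := le_max_right (A * τ.lam (n0 + n)) (F.hc.d s (cen τ s) p / 2)
    obtain ⟨x, hx, rfl⟩ := g3 p (by linarith) (by linarith)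
    exact ⟨x, g1 hx, rfl, hcmp (ha.trans_le (le_max_left _ _)) m1 (g4 x hx) d3⟩
  · have hs2 := hmem n s hs'
    have ha := mul_pos hA0 (lam_pos h (n0 + n))
    obtain ⟨-, g2, -, g4⟩ := hfact n s hs' (‖x‖ / 2) (by linarith) (by linarith)
    have g5 := g4 x ⟨by linarith, by linarith⟩
    obtain ⟨c1, c2⟩ := abs_le.1 g5
    exact hcmp (r := ‖x‖ / 2) (by linarith) (by linarith) g5
      (O.mid s hs2 _ (by rw [idx_eq h hs']; linarith) (by linarith))

end Crest.Agent.N207.Rad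

end
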