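import Crest.Agent.N207.Rad.Mesh

/-!
# Row 207, block P0 (helper89): the glued function `b` and its basic properties
-/

set_option autoImplicit false
set_option linter.dupNamespace false
set_option linter.unusedSectionVars false
open Set MeasureTheory Filter Topology
open scoped ContDiff Classical

noncomputable section

namespace Crest.Agent.N207.Rad

variable {M : Type*} [TopologicalSpace M] [CompactSpace M] [MeasurableSpace M]

/-- a family of static radial functions, one for each window -/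
structure Fam (H : HC M) (t0 r0 η : ℝ) (a : ℝ → ℝ) (z : ℝ → M) (β : ℕ × ℕ → M → ℝ) : Prop where
  t0_pos : 0 < t0
  r0_pos : 0 < r0
  η_le : η ≤ 1 / 100
  sc : Sc H.T t0 r0 a
  s0 : ∀ i, H.S0 (β i)
  pos : ∀ i x, 0 < β i x
  loc : ∀ i, Val H.T t0 r0 a i → ∀ t ∈ Ico t0 H.T, |tau t0 r0 i t| ≤ 2 →
    LocAt H t (z t) η (rj r0 i.1) (β i)

section defs
variable (T t0 r0 : ℝ) (a : ℝ → ℝ) (β : ℕ × ℕ → M → ℝ)

/-- the static weights -/
def wS (i : ℕ × ℕ) (x : M) : ℝ :=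
  if Val T t0 r0 a i then cW (i.1 = 0) (Bot T t0 r0 a i) (β i x / rj r0 i.1 ^ 2) else 0

/-- the weights -/
def wP (i : ℕ × ℕ) (t : ℝ) (x : M) : ℝ := bmp (tau t0 r0 i t) * wS T t0 r0 a β i x

/-- their time derivatives -/
def wP' (i : ℕ × ℕ) (t : ℝ) (x : M) : ℝ :=
  deriv bmp (tau t0 r0 i t) * (32 / rj r0 i.1 ^ 2) * wS T t0 r0 a β i x

/-- the total weight -/
def wW (t : ℝ) (x : M) : ℝ := ∑ᶠ i, wP T t0 r0 a β i t x

/-- the glued function -/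
def gb (t : ℝ) (x : M) : ℝ := (∑ᶠ i, wP T t0 r0 a β i t x * β i x) / wW T t0 r0 a β t x

/-- its time derivative -/
def gb' (t : ℝ) (x : M) : ℝ :=
  (∑ᶠ i, wP' T t0 r0 a β i t x * (β i x - gb T t0 r0 a β t x)) / wW T t0 r0 a β t x

/-- `S` contains the windows that meet the time `t` -/
def Cov (S : Finset (ℕ × ℕ)) (t : ℝ) : Prop :=
  ∀ i, Val T t0 r0 a i → |tau t0 r0 i t| ≤ 2 → i ∈ S

variable {T t0 r0 a β}

theorem wS_nonneg (i : ℕ × ℕ) (x : M) : 0 ≤ wS T t0 r0 a β i x := by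
  unfold wS; split_ifs
  · exact cW_nonneg _ _ _
  · exact le_rfl

theorem wS_le (i : ℕ × ℕ) (x : M) : wS T t0 r0 a β i x ≤ 1 := by
  unfold wS; split_ifs
  · exact cW_le _ _ _
  · exact zero_le_one

theorem wP_nonneg (i : ℕ × ℕ) (t : ℝ) (x : M) : 0 ≤ wP T t0 r0 a β i t x :=
  mul_nonneg (bmp_nonneg _) (wS_nonneg i x)

theorem wP_zero {i : ℕ × ℕ} {t : ℝ} (h : ¬ (Val T t0 r0 a i ∧ |tau t0 r0 i t| ≤ 2)) (x : M) :
    wP T t0 r0 a β i t x = 0 ∧ wP' T t0 r0 a β i t x = 0 := by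
  by_cases hv : Val T t0 r0 a i
  · have h2 : 2 < |tau t0 r0 i t| := not_le.1 fun e => h ⟨hv, e⟩
    simp [wP, wP', bmp_zero h2.le, bmp_deriv_zero h2]
  · simp [wP, wP', wS, hv]

variable {S : Finset (ℕ × ℕ)} {t : ℝ}

theorem Cov.fs (hS : Cov T t0 r0 a S t) {f : ℕ × ℕ → ℝ}
    (hf : ∀ i, ¬ (Val T t0 r0 a i ∧ |tau t0 r0 i t| ≤ 2) → f i = 0) :
    ∑ᶠ i, f i = ∑ i ∈ S, f i :=
  finsum_eq_sum_of_support_subset _ fun i hi => by
    by_contra hc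
    exact hi (hf i fun e => hc (hS i e.1 e.2))

theorem Cov.wW (hS : Cov T t0 r0 a S t) (x : M) :
    wW T t0 r0 a β t x = ∑ i ∈ S, wP T t0 r0 a β i t x := hS.fs fun _ h => (wP_zero h x).1

theorem Cov.gb (hS : Cov T t0 r0 a S t) (x : M) : gb T t0 r0 a β t x =
    (∑ i ∈ S, wP T t0 r0 a β i t x * β i x) / ∑ i ∈ S, wP T t0 r0 a β i t x := by
  rw [Rad.gb, hS.wW, hS.fs fun _ h => by rw [(wP_zero h x).1, zero_mul]]

theorem Cov.gb' (hS : Cov T t0 r0 a S t) (x : M) : gb' T t0 r0 a β t x =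
    (∑ i ∈ S, wP' T t0 r0 a β i t x * (β i x - Rad.gb T t0 r0 a β t x)) /
      ∑ i ∈ S, wP T t0 r0 a β i t x := by
  rw [Rad.gb', hS.wW, hS.fs fun _ h => by rw [(wP_zero h x).2, zero_mul]]

end defs

variable {H : HC M} {t0 r0 η : ℝ} {a : ℝ → ℝ} {z : ℝ → M} {β : ℕ × ℕ → M → ℝ}
  (F : Fam H t0 r0 η a z β)
include F

theorem Fam.mem {t : ℝ} (ht : t ∈ Ico t0 H.T) : t ∈ Ioo 0 H.T := ⟨F.t0_pos.trans_le ht.1, ht.2⟩

theorem Fam.cov {s1 : ℝ} (hs : s1 ∈ Ico t0 H.T) :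
    ∃ S : Finset (ℕ × ℕ), ∀ t ∈ Icc t0 s1, Cov H.T t0 r0 a S t := by
  obtain ⟨S, hS⟩ := F.sc.fin F.r0_pos hs
  exact ⟨S, fun t ht i hi hτ => hS i hi t ht hτ⟩

theorem Fam.cov1 {t : ℝ} (ht : t ∈ Ico t0 H.T) : ∃ S : Finset (ℕ × ℕ), Cov H.T t0 r0 a S t :=
  (F.cov ht).imp fun _ h => h t ⟨ht.1, le_rfl⟩

theorem Fam.plateau {t : ℝ} (ht : t ∈ Ico t0 H.T) (x : M) : ∃ i : ℕ × ℕ, Val H.T t0 r0 a i ∧
    |tau t0 r0 i t| ≤ 2 ∧ (i.1 = 0 ∨ H.d t (z t) x ≤ 13 / 10 * rj r0 i.1) ∧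
    (Bot H.T t0 r0 a i ∨ 13 / 20 * rj r0 i.1 ≤ H.d t (z t) x) ∧ wP H.T t0 r0 a β i t x = 1 := by
  obtain ⟨i, h1, h2, h3, h4⟩ := F.sc.plateau F.r0_pos ht (H.d t (z t) x)
  have h5 : |tau t0 r0 i t| ≤ 2 := h2.trans one_le_two
  have L := F.loc i h1 t ht h5
  have hp := rj_pos F.r0_pos i.1
  refine ⟨i, h1, h5, h3, h4, ?_⟩
  rw [wP, bmp_one h2, wS, if_pos h1, one_mul]
  exact cW_one (h3.imp_right (L.le_two F.η_le hp)) (h4.imp_right (L.ge_two F.η_le hp))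

theorem Fam.one_le {t : ℝ} (ht : t ∈ Ico t0 H.T) {S : Finset (ℕ × ℕ)} (hS : Cov H.T t0 r0 a S t)
    (x : M) : 1 ≤ ∑ i ∈ S, wP H.T t0 r0 a β i t x := by
  obtain ⟨i, h1, h2, -, -, h3⟩ := F.plateau ht x
  rw [← h3]
  exact Finset.single_le_sum (f := fun i => wP H.T t0 r0 a β i t x)
    (fun j _ => wP_nonneg j t x) (hS i h1 h2)

/-- what a non zero weight says -/
theorem Fam.alive {t : ℝ} (ht : t ∈ Ico t0 H.T) {i : ℕ × ℕ} {x : M} (hv : Val H.T t0 r0 a i)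
    (hτ : |tau t0 r0 i t| ≤ 2) (h : wS H.T t0 r0 a β i x ≠ 0) :
    (i.1 = 0 ∨ H.d t (z t) x < 3 * rj r0 i.1) ∧
      (Bot H.T t0 r0 a i ∨ 3 / 10 * rj r0 i.1 < H.d t (z t) x) := by
  have L := F.loc i hv t ht hτ
  have hp := rj_pos F.r0_pos i.1
  rw [wS, if_pos hv] at h
  constructor
  · by_contra hc
    rw [not_or, not_lt] at hc
    exact h (cW_top hc.1 (L.big F.η_le hp hc.2))
  · by_contra hc
    rw [not_or, not_lt] at hc
    exact h (cW_bot hc.1 (L.small F.η_le hp hc.2))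

theorem Fam.gb_le {t : ℝ} (ht : t ∈ Ico t0 H.T) {x : M} {c : ℝ}
    (h : ∀ i, Val H.T t0 r0 a i → |tau t0 r0 i t| ≤ 2 → wS H.T t0 r0 a β i x ≠ 0 → β i x ≤ c) :
    gb H.T t0 r0 a β t x ≤ c := by
  obtain ⟨S, hS⟩ := F.cov1 ht
  rw [hS.gb, div_le_iff₀ (one_pos.trans_le (F.one_le ht hS x)), Finset.mul_sum]
  refine Finset.sum_le_sum fun i _ => ?_
  by_cases h1 : Val H.T t0 r0 a i ∧ |tau t0 r0 i t| ≤ 2
  · by_cases h2 : wS H.T t0 r0 a β i x = 0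
    · simp [wP, h2]
    · rw [mul_comm c]; exact mul_le_mul_of_nonneg_left (h i h1.1 h1.2 h2) (wP_nonneg i t x)
  · simp [(wP_zero h1 x).1]

theorem Fam.le_gb {t : ℝ} (ht : t ∈ Ico t0 H.T) {x : M} {c : ℝ}
    (h : ∀ i, Val H.T t0 r0 a i → |tau t0 r0 i t| ≤ 2 → wS H.T t0 r0 a β i x ≠ 0 → c ≤ β i x) :
    c ≤ gb H.T t0 r0 a β t x := by
  obtain ⟨S, hS⟩ := F.cov1 ht
  rw [hS.gb, le_div_iff₀ (one_pos.trans_le (F.one_le ht hS x)), Finset.mul_sum]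
  refine Finset.sum_le_sum fun i _ => ?_
  by_cases h1 : Val H.T t0 r0 a i ∧ |tau t0 r0 i t| ≤ 2
  · by_cases h2 : wS H.T t0 r0 a β i x = 0
    · simp [wP, h2]
    · rw [mul_comm c]; exact mul_le_mul_of_nonneg_left (h i h1.1 h1.2 h2) (wP_nonneg i t x)
  · simp [(wP_zero h1 x).1]

theorem Fam.gb_pos {t : ℝ} (ht : t ∈ Ico t0 H.T) (x : M) : 0 < gb H.T t0 r0 a β t x := by
  obtain ⟨S, hS⟩ := F.cov1 ht
  obtain ⟨i, h1, h2, -, -, -⟩ := F.plateau ht x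
  have hne : S.Nonempty := ⟨i, hS i h1 h2⟩
  obtain ⟨j, -, hj⟩ := S.exists_min_image (fun i => β i x) hne
  exact (F.pos j x).trans_le (F.le_gb ht fun i e1 e2 _ => hj i (hS i e1 e2))

/-- inside -/
theorem Fam.gb_inn {t : ℝ} (ht : t ∈ Ico t0 H.T) {x : M} (h0 : 0 ≤ H.d t (z t) x)
    (hx : H.d t (z t) x ≤ a t) : gb H.T t0 r0 a β t x ≤ 2 * a t ^ 2 := by
  refine F.gb_le ht fun i hv hτ h => ?_
  obtain ⟨h1, h2⟩ := F.alive ht hv hτ h
  have L := F.loc i hv t ht hτ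
  have hp := rj_pos F.r0_pos i.1
  have ha := F.sc.pos t ht
  have b1 : H.d t (z t) x ≤ 4 * rj r0 i.1 := by
    rcases h1 with e | e
    · rw [e, rj_zero]; linarith [F.sc.le t ht, F.r0_pos]
    · linarith
  have b2 : rj r0 i.1 ≤ 10 / 3 * a t := by
    rcases h2 with e | e
    · have := e t ht hτ
      rw [rj_succ] at this; linarith
    · linarith
  have b3 : rj r0 i.1 ^ 2 ≤ 12 * a t ^ 2 := by nlinarith
  rcases le_total (H.d t (z t) x) (rj r0 i.1 / 4) with e | e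
  · have := L.inn x e; nlinarith
  · have := (abs_le.1 (L.mid x e b1).1).2
    have := F.η_le
    nlinarith [sq_nonneg (rj r0 i.1)]

/-- outside -/
theorem Fam.gb_out {t : ℝ} (ht : t ∈ Ico t0 H.T) {x : M} (hx : 2 * r0 ≤ H.d t (z t) x) :
    3 * r0 ^ 2 ≤ gb H.T t0 r0 a β t x := by
  refine F.le_gb ht fun i hv hτ h => ?_
  obtain ⟨h1, -⟩ := F.alive ht hv hτ h
  have L := F.loc i hv t ht hτ
  have hr := F.r0_pos
  have b1 : i.1 = 0 := by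
    by_contra hc
    have e := h1.resolve_left hc
    have := rj_le hr (show 0 + 1 ≤ i.1 by omega)
    rw [rj_succ, rj_zero] at this
    linarith
  rw [b1, rj_zero] at L
  rcases le_total (4 * r0) (H.d t (z t) x) with e | e
  · have := L.out x e; nlinarith
  · have := (abs_le.1 (L.mid x (by linarith) e).1).1
    have := F.η_le
    nlinarith

variable (A : H.Alg)
include A

theorem Fam.wS_s0 (i : ℕ × ℕ) : H.S0 (wS H.T t0 r0 a β i) := by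
  unfold wS
  by_cases hv : Val H.T t0 r0 a i
  · simp only [hv, if_true]
    have := A.s0_compU (cW_cd (i.1 = 0) (Bot H.T t0 r0 a i)) (A.s0_cmul (rj r0 i.1 ^ 2)⁻¹ (F.s0 i))
    simpa only [inv_mul_eq_div] using this
  · simp only [hv, if_false]; exact A.s0_const 0

omit F in
theorem sm_sum {ι : Type*} {s0 s1 : ℝ} (S : Finset ι) {f : ι → ℝ → M → ℝ}
    (h : ∀ i ∈ S, H.Sm s0 s1 (f i)) : H.Sm s0 s1 fun t x => ∑ i ∈ S, f i t x := by
  induction S using Finset.induction_on with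
  | empty => simpa using A.sm_const 0
  | insert i s hi ih =>
    simp only [Finset.sum_insert hi]
    exact A.sm_add (h i (Finset.mem_insert_self _ _))
      (ih fun j hj => h j (Finset.mem_insert_of_mem hj))

theorem Fam.wP_sm (s0 s1 : ℝ) (i : ℕ × ℕ) : H.Sm s0 s1 (wP H.T t0 r0 a β i) :=
  A.sm_mul (A.sm_timeU (bmp_cd.comp (tau_cd i))) (A.sm_static (F.wS_s0 A i))

theorem Fam.gb_sm {s0 s1 : ℝ} (h0 : t0 ≤ s0) (h01 : s0 ≤ s1) (h1 : s1 < H.T) :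
    H.Sm s0 s1 (gb H.T t0 r0 a β) := by
  obtain ⟨S, hS⟩ := F.cov (s1 := s1) ⟨h0.trans h01, h1⟩
  refine A.sm_congr (A.sm_div
    (sm_sum A S fun i _ => A.sm_mul (F.wP_sm A s0 s1 i) (A.sm_static (F.s0 i)))
    (sm_sum A S fun i _ => F.wP_sm A s0 s1 i) fun t ht x => one_pos.trans_le
      (F.one_le ⟨h0.trans ht.1, ht.2.trans_lt h1⟩ (hS t ⟨h0.trans ht.1, ht.2⟩) x)) fun t ht => ?_
  funext x
  exact (hS t ⟨h0.trans ht.1, ht.2⟩).gb x

omit A in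
theorem Fam.gb_dt {s0 s1 : ℝ} (h0 : t0 ≤ s0) (h01 : s0 ≤ s1) (h1 : s1 < H.T) :
    HasDt s0 s1 (gb H.T t0 r0 a β) (gb' H.T t0 r0 a β) := by
  obtain ⟨S, hS⟩ := F.cov (s1 := s1) ⟨h0.trans h01, h1⟩
  intro t ht x
  have hP : ∀ i, HasDerivAt (fun s => wP H.T t0 r0 a β i s x) (wP' H.T t0 r0 a β i t x) t :=
    fun i => (((bmp_cd.differentiable (by simp)) _).hasDerivAt.comp t (tau_deriv i t)).mul_const _
  have hc := hS t ⟨h0.trans ht.1, ht.2⟩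
  have hW := one_pos.trans_le (F.one_le ⟨h0.trans ht.1, ht.2.trans_lt h1⟩ hc x)
  have d1 := HasDerivAt.fun_sum (u := S) fun i _ => (hP i).mul_const (β i x)
  have d2 := HasDerivAt.fun_sum (u := S) fun i _ => hP i
  have d3 := (d1.div d2 hW.ne').hasDerivWithinAt (s := Icc s0 s1)
  refine (d3.congr (fun s hs => (hS s ⟨h0.trans hs.1, hs.2⟩).gb x) (hc.gb x)).congr_deriv ?_
  rw [hc.gb', hc.gb]
  simp only [mul_sub, Finset.sum_sub_distrib, ← Finset.sum_mul]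
  field_simp

end Crest.Agent.N207.Rad

end
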