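import Crest.Agent.N207.Rad.Loc

/-!
# Row 207, block P0 (helper89): the space-time mesh
-/

set_option autoImplicit false
set_option linter.dupNamespace false
set_option linter.unusedSectionVars false
open Set MeasureTheory Filter Topology
open scoped ContDiff

noncomputable section

namespace Crest.Agent.N207.Rad

/-- the time bump: `1` on `|s| ≤ 1`, `0` on `2 ≤ |s|` -/
def bmp (s : ℝ) : ℝ := E.zeta s * E.zeta (-s)

theorem bmp_cd : ContDiff ℝ ∞ bmp := E.zeta_cd.mul (E.zeta_cd.comp contDiff_neg)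

theorem bmp_nonneg (s : ℝ) : 0 ≤ bmp s := mul_nonneg (E.zeta_nonneg _) (E.zeta_nonneg _)

theorem bmp_le (s : ℝ) : bmp s ≤ 1 :=
  mul_le_one₀ (E.zeta_le_one _) (E.zeta_nonneg _) (E.zeta_le_one _)

theorem bmp_one {s : ℝ} (h : |s| ≤ 1) : bmp s = 1 := by
  obtain ⟨a, b⟩ := abs_le.1 h
  rw [bmp, E.zeta_one b, E.zeta_one (by linarith), one_mul]

theorem bmp_zero {s : ℝ} (h : 2 ≤ |s|) : bmp s = 0 := by
  rcases le_abs.1 h with a | a
  · rw [bmp, E.zeta_zero a, zero_mul]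
  · rw [bmp, E.zeta_zero a, mul_zero]

theorem bmp_deriv_zero {s : ℝ} (h : 2 < |s|) : deriv bmp s = 0 := by
  have : bmp =ᶠ[𝓝 s] fun _ => 0 := by
    filter_upwards [continuous_abs.continuousAt.eventually (lt_mem_nhds h)] with y hy
    exact bmp_zero hy.le
  rw [this.deriv_eq, deriv_const]

theorem bmp_deriv_bdd : ∃ K : ℝ, 1 ≤ K ∧ ∀ s, |deriv bmp s| ≤ K := by
  obtain ⟨K, hK, h⟩ := bdd2 bmp_cd
  refine ⟨K, hK, fun s => ?_⟩
  rcases lt_or_ge 2 |s| with a | a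
  · rw [bmp_deriv_zero a, abs_zero]; linarith
  · obtain ⟨b, c⟩ := abs_le.1 a
    exact (h s ⟨by linarith, by linarith⟩).1

/-- the dyadic scales -/
def rj (r0 : ℝ) (j : ℕ) : ℝ := r0 / 2 ^ j

/-- the rescaled time of the window `i = (j,k)` -/
def tau (t0 r0 : ℝ) (i : ℕ × ℕ) (t : ℝ) : ℝ := (t - t0) / (rj r0 i.1 ^ 2 / 32) - i.2

variable {T t0 r0 : ℝ} {a : ℝ → ℝ}

theorem rj_pos (h : 0 < r0) (j : ℕ) : 0 < rj r0 j := by unfold rj; positivity

theorem rj_zero : rj r0 0 = r0 := by simp [rj]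

theorem rj_succ (j : ℕ) : rj r0 (j + 1) = rj r0 j / 2 := by unfold rj; rw [pow_succ, div_div]

theorem rj_le (h : 0 < r0) {i j : ℕ} (hij : i ≤ j) : rj r0 j ≤ rj r0 i := by
  unfold rj; gcongr; norm_num

theorem rj_le_r0 (h : 0 < r0) (j : ℕ) : rj r0 j ≤ r0 := by
  simpa [rj_zero] using rj_le h (Nat.zero_le j)

theorem exists_rj_lt (h : 0 < r0) {m : ℝ} (hm : 0 < m) : ∃ J, ∀ j, J ≤ j → rj r0 j < m := by
  obtain ⟨J, hJ⟩ := pow_unbounded_of_one_lt (r0 / m) (one_lt_two (α := ℝ))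
  refine ⟨J, fun j hj => (rj_le h hj).trans_lt ?_⟩
  rw [rj, div_lt_iff₀ (by positivity)]
  rw [div_lt_iff₀ hm] at hJ
  linarith

theorem tau_sub (h : 0 < r0) (i : ℕ × ℕ) (t t' : ℝ) :
    t' - t = (tau t0 r0 i t' - tau t0 r0 i t) * (rj r0 i.1 ^ 2 / 32) := by
  have := rj_pos h i.1
  unfold tau; field_simp; ring

theorem tau_cd (i : ℕ × ℕ) : ContDiff ℝ ∞ (tau t0 r0 i) := by unfold tau; fun_prop

theorem tau_deriv (i : ℕ × ℕ) (t : ℝ) : HasDerivAt (tau t0 r0 i) (32 / rj r0 i.1 ^ 2) t := by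
  unfold tau
  have := (((hasDerivAt_id t).sub_const t0).div_const (rj r0 i.1 ^ 2 / 32)).sub_const (i.2 : ℝ)
  simpa using this

/-- the window has a chart -/
def Val (T t0 r0 : ℝ) (a : ℝ → ℝ) (i : ℕ × ℕ) : Prop :=
  ∃ s ∈ Ico t0 T, a s ≤ rj r0 i.1 ∧ ∀ t, |tau t0 r0 i t| ≤ 2 → |t - s| ≤ rj r0 i.1 ^ 2

/-- the window carries the inner weight -/
def Bot (T t0 r0 : ℝ) (a : ℝ → ℝ) (i : ℕ × ℕ) : Prop :=
  ∀ t ∈ Ico t0 T, |tau t0 r0 i t| ≤ 2 → rj r0 (i.1 + 1) < a t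

/-- the inner scale -/
structure Sc (T t0 r0 : ℝ) (a : ℝ → ℝ) : Prop where
  pos : ∀ t ∈ Ico t0 T, 0 < a t
  anti : AntitoneOn a (Ico t0 T)
  le : ∀ t ∈ Ico t0 T, a t ≤ r0

/-- local finiteness -/
theorem Sc.fin (h : Sc T t0 r0 a) (hr : 0 < r0) {s1 : ℝ} (hs : s1 ∈ Ico t0 T) :
    ∃ S : Finset (ℕ × ℕ), ∀ i, Val T t0 r0 a i → ∀ t ∈ Icc t0 s1, |tau t0 r0 i t| ≤ 2 → i ∈ S := by
  set s2 := (s1 + T) / 2 with hs2
  have h2 : s2 ∈ Ico t0 T := ⟨by linarith [hs.1, hs.2], by linarith [hs.2]⟩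
  have h3 : 0 < s2 - s1 := by linarith [hs.2]
  have hm : 0 < min (a s2) (√(s2 - s1)) := lt_min (h.pos s2 h2) (Real.sqrt_pos.2 h3)
  obtain ⟨J, hJ⟩ := exists_rj_lt hr hm
  obtain ⟨Kk, hK⟩ := exists_nat_gt ((s1 - t0) / (rj r0 J ^ 2 / 32) + 2)
  refine ⟨Finset.range J ×ˢ Finset.range Kk, fun i ⟨s, hsI, has, hw⟩ t ht hτ => ?_⟩
  have hj : i.1 < J := by
    by_contra hc
    have b1 := hJ i.1 (not_lt.1 hc)
    have b2 : rj r0 i.1 ^ 2 ≤ s2 - s1 := by
      have := (b1.trans_le (min_le_right _ _)).le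
      rw [Real.le_sqrt (rj_pos hr _).le h3.le] at this
      exact this
    have b3 := (abs_le.1 (hw t hτ)).1
    have b4 := h.anti hsI h2 (by linarith [ht.2])
    linarith [b1.trans_le (min_le_left _ _)]
  rw [Finset.mem_product, Finset.mem_range, Finset.mem_range]
  refine ⟨hj, ?_⟩
  have c1 := (abs_le.1 hτ).1
  have c2 : (t - t0) / (rj r0 i.1 ^ 2 / 32) ≤ (s1 - t0) / (rj r0 J ^ 2 / 32) := by
    have := rj_le hr hj.le
    have := rj_pos hr J
    gcongr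
    · linarith [hs.1]
    · exact ht.2
  unfold tau at c1
  exact_mod_cast (show (i.2 : ℝ) < Kk by linarith)

/-- every point is on the plateau of some window -/
theorem Sc.plateau (h : Sc T t0 r0 a) (hr : 0 < r0) {t : ℝ} (ht : t ∈ Ico t0 T) (ρ : ℝ) :
    ∃ i : ℕ × ℕ, Val T t0 r0 a i ∧ |tau t0 r0 i t| ≤ 1 ∧ (i.1 = 0 ∨ ρ ≤ 13 / 10 * rj r0 i.1) ∧
      (Bot T t0 r0 a i ∨ 13 / 20 * rj r0 i.1 ≤ ρ) := by
  classical
  let av : ℕ → Prop := fun j => ∃ s ∈ Ico t0 T, t ≤ s ∧ s ≤ t + rj r0 j ^ 2 / 2 ∧ a s ≤ rj r0 j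
  have a0 : av 0 := ⟨t, ht, le_rfl, by linarith [sq_nonneg (rj r0 0)], rj_zero ▸ h.le t ht⟩
  have a1 : ∃ j, ¬ av (j + 1) := by
    set s2 := (t + T) / 2 with hs2
    have h2 : s2 ∈ Ico t0 T := ⟨by linarith [ht.1, ht.2], by linarith [ht.2]⟩
    have h3 : 0 < s2 - t := by linarith [ht.2]
    obtain ⟨J, hJ⟩ := exists_rj_lt hr (lt_min (h.pos s2 h2) (Real.sqrt_pos.2 h3))
    refine ⟨J, fun ⟨s, hs, _, b2, b3⟩ => ?_⟩
    have b1 := hJ (J + 1) (Nat.le_succ J)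
    have b4 : rj r0 (J + 1) ^ 2 ≤ s2 - t := by
      have := (b1.trans_le (min_le_right _ _)).le
      rw [Real.le_sqrt (rj_pos hr _).le h3.le] at this
      exact this
    have b5 := h.anti hs h2 (by linarith)
    linarith [b1.trans_le (min_le_left _ _)]
  set J := Nat.find a1 with hJ
  have a2 : ∀ j ≤ J, av j := fun j hj => by
    rcases j with _ | j
    · exact a0
    · exact not_not.1 (Nat.find_min a1 (Nat.lt_of_succ_le hj))
  have a3 : ¬ av (J + 1) := Nat.find_spec a1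
  have key : ∀ j ≤ J, ∃ k : ℕ, Val T t0 r0 a (j, k) ∧ |tau t0 r0 (j, k) t| ≤ 1 ∧
      (j = J → Bot T t0 r0 a (j, k)) := by
    intro j hj
    have hp := rj_pos hr j
    have hq : 0 ≤ (t - t0) / (rj r0 j ^ 2 / 32) := by have := ht.1; apply div_nonneg <;> [linarith; positivity]
    have b1 : |tau t0 r0 (j, ⌊(t - t0) / (rj r0 j ^ 2 / 32)⌋₊) t| ≤ 1 := by
      have := Nat.floor_le hq
      have := Nat.lt_floor_add_one ((t - t0) / (rj r0 j ^ 2 / 32))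
      unfold tau
      exact abs_le.2 ⟨by simp only; linarith, by simp only; linarith⟩
    have b2 : ∀ t', |tau t0 r0 (j, ⌊(t - t0) / (rj r0 j ^ 2 / 32)⌋₊) t'| ≤ 2 →
        |t' - t| ≤ 3 * (rj r0 j ^ 2 / 32) := fun t' ht' => by
      rw [tau_sub (t0 := t0) hr (j, ⌊(t - t0) / (rj r0 j ^ 2 / 32)⌋₊) t t', abs_mul,
        abs_of_pos (show 0 < rj r0 j ^ 2 / 32 by positivity)]
      have := abs_sub (tau t0 r0 (j, ⌊(t - t0) / (rj r0 j ^ 2 / 32)⌋₊) t')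
        (tau t0 r0 (j, ⌊(t - t0) / (rj r0 j ^ 2 / 32)⌋₊) t)
      exact mul_le_mul_of_nonneg_right (by linarith) (by positivity)
    refine ⟨_, ?_, b1, ?_⟩
    · obtain ⟨s, hs, c1, c2, c3⟩ := a2 j hj
      refine ⟨s, hs, c3, fun t' ht' => ?_⟩
      obtain ⟨d1, d2⟩ := abs_le.1 (b2 t' ht')
      have := sq_nonneg (rj r0 j)
      exact abs_le.2 ⟨by simp only; linarith, by simp only; linarith⟩
    · rintro rfl t' ht' hτ
      by_contra hc
      rcases le_total t' t with c | c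
      · exact a3 ⟨t, ht, le_rfl, by linarith [sq_nonneg (rj r0 (J + 1))],
          (h.anti ht' ht c).trans (not_lt.1 hc)⟩
      · refine a3 ⟨t', ht', c, ?_, not_lt.1 hc⟩
        have := (abs_le.1 (b2 t' hτ)).2
        rw [rj_succ]; nlinarith [sq_nonneg (rj r0 J)]
  by_cases h0 : ρ ≤ 13 / 10 * rj r0 0
  · let P : ℕ → Prop := fun j => ρ ≤ 13 / 10 * rj r0 j
    have hj : Nat.findGreatest P J ≤ J := Nat.findGreatest_le J
    have hP : P (Nat.findGreatest P J) := Nat.findGreatest_spec (Nat.zero_le J) h0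
    obtain ⟨k, k1, k2, k3⟩ := key _ hj
    refine ⟨(_, k), k1, k2, Or.inr hP, ?_⟩
    rcases hj.eq_or_lt with e | e
    · exact Or.inl (k3 e)
    · right
      have : ¬ P (Nat.findGreatest P J + 1) :=
        Nat.findGreatest_is_greatest (Nat.lt_succ_self _) e
      simp only [P, rj_succ, not_le] at this
      simp only; linarith
  · obtain ⟨k, k1, k2, -⟩ := key 0 (Nat.zero_le J)
    refine ⟨(0, k), k1, k2, Or.inl rfl, Or.inr ?_⟩
    have := rj_pos hr 0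
    simp only; linarith

theorem card_le_of_near (S : Finset ℕ) (h : ∀ i ∈ S, ∀ j ∈ S, i ≤ j + 4) : S.card ≤ 5 := by
  rcases S.eq_empty_or_nonempty with rfl | hS
  · simp
  · calc S.card ≤ (Finset.Icc (S.min' hS) (S.min' hS + 4)).card :=
          Finset.card_le_card fun i hi =>
            Finset.mem_Icc.2 ⟨S.min'_le i hi, h i hi _ (S.min'_mem hS)⟩
      _ = 5 := by simp only [Nat.card_Icc]; omega

/-- at most 25 windows are alive -/
theorem card_alive (hr : 0 < r0) (S : Finset (ℕ × ℕ)) {t ρ : ℝ}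
    (h : ∀ i ∈ S, |tau t0 r0 i t| ≤ 2 ∧ 3 / 10 * rj r0 i.1 ≤ ρ ∧ ρ ≤ 3 * rj r0 i.1) :
    S.card ≤ 25 := by
  classical
  have h1 : (S.image Prod.fst).card ≤ 5 := card_le_of_near _ fun i hi j hj => by
    obtain ⟨p, hp, rfl⟩ := Finset.mem_image.1 hi
    obtain ⟨q, hq, rfl⟩ := Finset.mem_image.1 hj
    by_contra hc
    have a1 := rj_le hr (show q.1 + 4 ≤ p.1 by omega)
    simp only [rj_succ] at a1
    have := rj_pos hr q.1
    linarith [(h p hp).2.2, (h q hq).2.1]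
  have h2 : ∀ j ∈ S.image Prod.fst, (S.filter fun i => i.1 = j).card ≤ 5 := fun j _ => by
    rw [← Finset.card_image_of_injOn (f := Prod.snd) (fun p hp q hq e => Prod.ext
      ((Finset.mem_filter.1 hp).2.trans (Finset.mem_filter.1 hq).2.symm) e)]
    refine card_le_of_near _ fun i hi k hk => ?_
    obtain ⟨p, hp, rfl⟩ := Finset.mem_image.1 hi
    obtain ⟨q, hq, rfl⟩ := Finset.mem_image.1 hk
    obtain ⟨hp1, hp2⟩ := Finset.mem_filter.1 hp
    obtain ⟨hq1, hq2⟩ := Finset.mem_filter.1 hq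
    have a1 := (abs_le.1 (h p hp1).1).1
    have a2 := (abs_le.1 (h q hq1).1).2
    unfold tau at a1 a2
    rw [hp2] at a1; rw [hq2] at a2
    exact_mod_cast (show (p.2 : ℝ) ≤ q.2 + 4 by linarith)
  calc S.card ≤ 5 * (S.image Prod.fst).card := Finset.card_le_mul_card_image S 5 h2
    _ ≤ 25 := by omega

end Crest.Agent.N207.Rad

end
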