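import Crest.Agent.N207.Rad.Crd2
import Crest.Agent.N207.G.Tr

/-!
# Row 207, block P0 (helper89): radial functions of a neck chart
-/

set_option autoImplicit false
set_option linter.unusedSectionVars false

open scoped ContDiff Topology Manifold Classical
open Set Filter
open Crest.GeometryTopology.CoordMetric Crest.GeometryTopology.ChartCurvature
  Crest.GeometryTopology.MetricFamily

noncomputable section

namespace Crest.Agent.N207.Rad

open Sk

variable {M : Type*} [TopologicalSpace M] [ChartedSpace E4 M] [IsManifold 𝓘(ℝ, E4) ∞ M]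

/-- a function whose pull-back is smooth is smooth -/
theorem contMDiffAt_of_par {Ψ : E4 → M} {U : Set E4} (hP : Par Ψ U) {x : E4} (hx : x ∈ U)
    {f : M → ℝ} (hf : ContDiffOn ℝ ∞ (fun y => f (Ψ y)) U) :
    ContMDiffAt 𝓘(ℝ, E4) 𝓘(ℝ, ℝ) ∞ f (Ψ x) := by
  obtain ⟨T, V, hV, hyV, -, -, hT, hm⟩ := Gs.exists_trans0 (Par.chart (n := 4) (Ψ x)) hP
    (ctr_mem (Ψ x)) hx (symm_ctr (Ψ x)).symm
  refine contMDiffAt_of_inCh (x := Ψ x) (mem_chart_source E4 _) ?_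
  have h1 : ContDiffOn ℝ ∞ (fun z => f (Ψ (T z))) V := hf.comp hT fun z hz => (hm z hz).1
  refine (h1.contDiffAt (hV.mem_nhds hyV)).congr_of_eventuallyEq ?_
  filter_upwards [hV.mem_nhds hyV] with z hz
  rw [(hm z hz).2]; rfl

/-- the function `θ (|x|²)` on the neck, constant inside and outside -/
def radF (N : Nk M) (θ : ℝ → ℝ) (c1 c2 : ℝ) (p : M) : ℝ :=
  if h : ∃ x ∈ shell N.a N.b, N.Ψ x = p then θ (‖h.choose‖ ^ 2) else if p ∈ N.In then c1 else c2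

variable {N : Nk M} {θ : ℝ → ℝ} {c1 c2 : ℝ}

theorem radF_chart (hN : N.Top) {x : E4} (hx : x ∈ shell N.a N.b) :
    radF N θ c1 c2 (N.Ψ x) = θ (‖x‖ ^ 2) := by
  have h : ∃ y ∈ shell N.a N.b, N.Ψ y = N.Ψ x := ⟨x, hx, rfl⟩
  obtain ⟨γ, -, e⟩ := (hN.fib _ h.choose_spec.1 _ hx).1 h.choose_spec.2
  have e2 : ‖h.choose‖ = ‖x‖ := (γ.norm_map _).symm.trans (congrArg norm e)
  rw [radF, dif_pos h, e2]

theorem radF_in (hN : N.Top) {p : M} (hp : p ∈ N.In) : radF N θ c1 c2 p = c1 := by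
  rw [radF, dif_neg, if_pos hp]
  rintro ⟨x, hx, rfl⟩
  exact hN.disj x hx hp

theorem radF_out {p : M} (hp : p ∉ N.Om N.b) : radF N θ c1 c2 p = c2 := by
  rw [radF, dif_neg, if_neg fun h => hp (Or.inl h)]
  rintro ⟨x, hx, rfl⟩
  exact hp (Or.inr ⟨x, hx, rfl⟩)

theorem cases_nk (N : Nk M) (p : M) :
    p ∈ N.In ∨ (∃ x ∈ shell N.a N.b, N.Ψ x = p) ∨ p ∉ N.Om N.b := by
  by_cases h : p ∈ N.Om N.b
  · rcases h with h | h
    · exact Or.inl h
    · exact Or.inr (Or.inl h)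
  · exact Or.inr (Or.inr h)

theorem radF_sm (hN : N.Top) (hθ : ContDiff ℝ ∞ θ) {a1 b1 : ℝ} (ha : N.a < a1) (hab : a1 ≤ b1)
    (hb : b1 < N.b) (h1 : ∀ s ≤ a1 ^ 2, θ s = c1) (h2 : ∀ s, b1 ^ 2 ≤ s → θ s = c2) :
    Sm 4 (radF N θ c1 c2) := by
  intro p
  have ha0 := hN.a_pos
  rcases cases_nk N p with hp | ⟨x, hx, rfl⟩ | hp
  · refine (contMDiffAt_const (c := c1)).congr_of_eventuallyEq ?_
    filter_upwards [(hN.opn a1 ⟨ha, by linarith⟩).mem_nhds (Or.inl hp)] with q hq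
    rcases hq with hq | ⟨y, hy, rfl⟩
    · exact radF_in hN hq
    · rw [radF_chart hN ⟨hy.1, by linarith [hy.2]⟩]
      exact h1 _ (pow_le_pow_left₀ (norm_nonneg _) hy.2.le 2)
  · refine contMDiffAt_of_par hN.par hx ?_
    exact (hθ.comp nq_cd).contDiffOn.congr fun y hy => radF_chart hN hy
  · refine (contMDiffAt_const (c := c2)).congr_of_eventuallyEq ?_
    have hc := (hN.cls b1 ⟨by linarith, hb⟩).isOpen_compl
    have hm : p ∈ (N.In ∪ N.Ψ '' {x | N.a < ‖x‖ ∧ ‖x‖ ≤ b1})ᶜ := by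
      rintro (h | ⟨y, hy, rfl⟩)
      · exact hp (Or.inl h)
      · exact hp (Or.inr ⟨y, ⟨hy.1, by linarith [hy.2]⟩, rfl⟩)
    filter_upwards [hc.mem_nhds hm] with q hq
    rcases cases_nk N q with h | ⟨y, hy, rfl⟩ | h
    · exact (hq (Or.inl h)).elim
    · rw [radF_chart hN hy]
      have : b1 < ‖y‖ := lt_of_not_ge fun e => hq (Or.inr ⟨y, ⟨hy.1, e⟩, rfl⟩)
      exact h2 _ (pow_le_pow_left₀ (by linarith) this.le 2)
    · exact radF_out h

/-- the profile: `1/20` below `1/40`, the identity on `[1/20, 20]`, `20` above `40` -/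
def prof (s : ℝ) : ℝ := E.zeta (40 * s) * (1 / 20) +
  (1 - E.zeta (40 * s)) * (E.zeta (s / 20) * s + (1 - E.zeta (s / 20)) * 20)

theorem prof_cd : ContDiff ℝ ∞ prof := by
  have h1 : ContDiff ℝ ∞ fun s : ℝ => E.zeta (40 * s) := E.zeta_cd.comp (by fun_prop)
  have h2 : ContDiff ℝ ∞ fun s : ℝ => E.zeta (s / 20) := E.zeta_cd.comp (by fun_prop)
  exact (h1.mul contDiff_const).add ((contDiff_const.sub h1).mul
    ((h2.mul contDiff_id).add ((contDiff_const.sub h2).mul contDiff_const)))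

theorem prof_lo {s : ℝ} (h : s ≤ 1 / 40) : prof s = 1 / 20 := by
  rw [prof, E.zeta_one (by linarith)]; ring

theorem prof_hi {s : ℝ} (h : 40 ≤ s) : prof s = 20 := by
  rw [prof, E.zeta_zero (by linarith), E.zeta_zero (by linarith)]; ring

theorem prof_id {s : ℝ} (h : 1 / 20 ≤ s) (h' : s ≤ 20) : prof s = s := by
  rw [prof, E.zeta_zero (by linarith), E.zeta_one (by linarith)]; ring

theorem prof_le {s : ℝ} (h : s ≤ 1 / 8) : prof s ≤ 1 / 8 := by
  rw [prof, E.zeta_one (show s / 20 ≤ 1 by linarith)]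
  nlinarith [E.zeta_nonneg (40 * s), E.zeta_le_one (40 * s)]

theorem prof_ge {s : ℝ} (h : 8 ≤ s) : 8 ≤ prof s := by
  rw [prof, E.zeta_zero (show 2 ≤ 40 * s by linarith)]
  nlinarith [E.zeta_nonneg (s / 20), E.zeta_le_one (s / 20)]

theorem prof_pos (s : ℝ) : 0 < prof s := by
  rcases le_total s (1 / 40) with h | h
  · rw [prof_lo h]; norm_num
  · have a1 := E.zeta_nonneg (40 * s)
    have a2 := E.zeta_le_one (40 * s)
    have a3 : 1 / 40 ≤ E.zeta (s / 20) * s + (1 - E.zeta (s / 20)) * 20 := by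
      nlinarith [E.zeta_nonneg (s / 20), E.zeta_le_one (s / 20)]
    rw [prof]; nlinarith

/-- the radial function at the scale `r` -/
def radB (N : Nk M) (r : ℝ) : M → ℝ :=
  radF N (fun s => r ^ 2 * prof (s / r ^ 2)) (r ^ 2 / 20) (20 * r ^ 2)

variable {r : ℝ}

theorem radB_sm (hN : N.Top) (hr : 0 < r) (ha : N.a < r / 7) (hb : 7 * r < N.b) :
    Sm 4 (radB N r) := by
  have h2 : 0 < r ^ 2 := by positivity
  refine radF_sm hN (contDiff_const.mul (prof_cd.comp (by fun_prop))) ha (by linarith) hb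
    (fun s hs => ?_) fun s hs => ?_
  · rw [prof_lo (by rw [div_le_iff₀ h2]; nlinarith)]; ring
  · rw [prof_hi (by rw [le_div_iff₀ h2]; nlinarith)]; ring

theorem radB_pos (hN : N.Top) (hr : 0 < r) (p : M) : 0 < radB N r p := by
  rcases cases_nk N p with hp | ⟨x, hx, rfl⟩ | hp
  · rw [radB, radF_in hN hp]; positivity
  · rw [radB, radF_chart hN hx]; exact mul_pos (by positivity) (prof_pos _)
  · rw [radB, radF_out hp]; positivity

theorem radB_ev (hN : N.Top) (hr : 0 < r) {x : E4} (hx : x ∈ shell N.a N.b)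
    (h1 : r ^ 2 / 20 < ‖x‖ ^ 2) (h2 : ‖x‖ ^ 2 < 20 * r ^ 2) :
    (fun y => radB N r (N.Ψ y)) =ᶠ[𝓝 x] nq := by
  have hr2 : 0 < r ^ 2 := by positivity
  filter_upwards [hN.par.isOpen.mem_nhds hx,
    nq_cd.continuous.continuousAt.eventually (Ioo_mem_nhds h1 h2)] with y hy hy2
  rw [radB, radF_chart hN hy, prof_id (by rw [le_div_iff₀ hr2]; linarith [hy2.1, show nq y = ‖y‖ ^ 2 from rfl])
    (by rw [div_le_iff₀ hr2]; linarith [hy2.2, show nq y = ‖y‖ ^ 2 from rfl]), nq]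
  field_simp

/-- the second order quantities of the radial function -/
theorem radB_est (hN : N.Top) (hr : 0 < r) (ha : N.a < r / 7) (hb : 7 * r < N.b) (g : Met 4 M)
    {x : E4} (hx : x ∈ shell N.a N.b) (h1 : r ^ 2 / 20 < ‖x‖ ^ 2) (h2 : ‖x‖ ^ 2 < 20 * r ^ 2)
    {η : ℝ} (hη : η ≤ 1 / 100) (h : JG 1 (g.pm N.Ψ) x ‖x‖ η) :
    radB N r (N.Ψ x) = ‖x‖ ^ 2 ∧
    |g.gam (radB N r) (radB N r) (N.Ψ x) - 4 * ‖x‖ ^ 2| ≤ 128 * η * ‖x‖ ^ 2 ∧
    |g.lap (radB N r) (N.Ψ x) - 8| ≤ 1600 * η ∧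
    |g.nsq (g.hess (radB N r)) (N.Ψ x) - 16| ≤ 12800 * η := by
  have hS := radB_sm hN hr ha hb
  have he := radB_ev hN hr hx h1 h2
  have hG := hN.par.riem g
  have hx0 : 0 < ‖x‖ := hN.a_pos.trans hx.1
  refine ⟨he.eq_of_nhds, ?_, ?_, ?_⟩
  · rw [hN.par.par_gam g hS hS hx]
    have : Crest.Agent.R247.Bo84.gam (g.pm N.Ψ) (fun y => radB N r (N.Ψ y))
        (fun y => radB N r (N.Ψ y)) x = Crest.Agent.R247.Bo84.gam (g.pm N.Ψ) nq nq x := by
      simp only [Crest.Agent.R247.Bo84.gam, pd_congr _ he]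
    rw [this]; exact nq_gam hG hx h hη
  · rw [hN.par.par_lap g hS hx, (lapB_congr (EventuallyEq.refl _ _) he).eq_of_nhds]
    exact nq_lap hG hx h hη le_rfl hx0
  · rw [hN.par.par_hh g hS hx, nsq, ip, (hessT_congr (EventuallyEq.refl _ _) he).eq_of_nhds]
    exact nq_hh hG hx h hη le_rfl hx0

end Crest.Agent.N207.Rad

end
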