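import Crest.Agent.N207.Rad.Neck

/-!
# Row 207, block P0 (helper89): restriction of necks, `LocAt` from the distance sandwich
-/

set_option autoImplicit false
set_option linter.unusedSectionVars false

open scoped ContDiff Topology Manifold Classical
open Set Filter
open Crest.GeometryTopology.CoordMetric Crest.GeometryTopology.ChartCurvature
  Crest.GeometryTopology.MetricFamily

noncomputable section

namespace Crest.Agent.N207.Rad

open Sk

variable {M : Type*} [TopologicalSpace M] [ChartedSpace E4 M] [IsManifold 𝓘(ℝ, E4) ∞ M]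
  {N : Nk M} {a' b' r : ℝ}

theorem om_mono (N : Nk M) {r r' : ℝ} (h : r ≤ r') : N.Om r ⊆ N.Om r' :=
  union_subset_union_right _ (image_mono fun _ hx => ⟨hx.1, hx.2.trans_le h⟩)

theorem res_om (ha : N.a < a') (hr : a' < r) : (N.res a' b').Om r = N.Om r := by
  ext p
  constructor
  · rintro ((h | ⟨x, hx, rfl⟩) | ⟨x, hx, rfl⟩)
    · exact Or.inl h
    · exact Or.inr ⟨x, ⟨hx.1, hx.2.trans_lt hr⟩, rfl⟩
    · exact Or.inr ⟨x, ⟨ha.trans hx.1, hx.2⟩, rfl⟩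
  · rintro (h | ⟨x, hx, rfl⟩)
    · exact Or.inl (Or.inl h)
    · rcases le_or_gt ‖x‖ a' with e | e
      · exact Or.inl (Or.inr ⟨x, ⟨hx.1, e⟩, rfl⟩)
      · exact Or.inr ⟨x, ⟨e, hx.2⟩, rfl⟩

theorem res_in_sub (hr : a' < r) : (N.res a' b').In ⊆ N.Om r := by
  rintro p (h | ⟨x, hx, rfl⟩)
  · exact Or.inl h
  · exact Or.inr ⟨x, ⟨hx.1, hx.2.trans_lt hr⟩, rfl⟩

theorem om_sub_res_in : N.Om a' ⊆ (N.res a' b').In := by
  rintro p (h | ⟨x, hx, rfl⟩)
  · exact Or.inl h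
  · exact Or.inr ⟨x, ⟨hx.1, hx.2.le⟩, rfl⟩

theorem res_top (hN : N.Top) (ha : N.a < a') (hab : a' < b') (hb : b' ≤ N.b) :
    (N.res a' b').Top := by
  have hs : shell a' b' ⊆ shell N.a N.b := fun x hx => ⟨ha.trans hx.1, hx.2.trans_le hb⟩
  have ho : IsOpen (shell a' b') :=
    (isOpen_lt continuous_const continuous_norm).inter (isOpen_lt continuous_norm continuous_const)
  refine ⟨hN.grp, hN.a_pos.trans ha, hab, hN.par.mono ho hs,
    fun x hx y hy => hN.fib x (hs hx) y (hs hy), ?_, fun r hr => ?_, fun r hr => ?_,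
    hN.ne.mono subset_union_left⟩
  · rintro x hx (h | ⟨y, hy, e⟩)
    · exact hN.disj x (hs hx) h
    · obtain ⟨γ, -, e2⟩ := (hN.fib y ⟨hy.1, by linarith [hy.2]⟩ x (hs hx)).1 e
      have : ‖y‖ = ‖x‖ := (γ.norm_map _).symm.trans (congrArg norm e2)
      have hx1 : a' < ‖x‖ := hx.1
      linarith [hy.2]
  · rw [res_om ha hr.1]
    exact hN.opn r ⟨ha.trans hr.1, hr.2.trans hb⟩
  · have hr1 : a' < r := hr.1
    have hr2 : r < b' := hr.2
    have e : (N.res a' b').In ∪ (N.res a' b').Ψ '' {x | (N.res a' b').a < ‖x‖ ∧ ‖x‖ ≤ r} =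
        N.In ∪ N.Ψ '' {x | N.a < ‖x‖ ∧ ‖x‖ ≤ r} := by
      ext p
      constructor
      · rintro ((h | ⟨x, hx, rfl⟩) | ⟨x, hx, rfl⟩)
        · exact Or.inl h
        · exact Or.inr ⟨x, ⟨hx.1, hx.2.trans hr1.le⟩, rfl⟩
        · exact Or.inr ⟨x, ⟨ha.trans hx.1, hx.2⟩, rfl⟩
      · rintro (h | ⟨x, hx, rfl⟩)
        · exact Or.inl (Or.inl h)
        · rcases le_or_gt ‖x‖ a' with e | e
          · exact Or.inl (Or.inr ⟨x, ⟨hx.1, e⟩, rfl⟩)
          · exact Or.inr ⟨x, ⟨e, hx.2⟩, rfl⟩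
    rw [e]
    exact hN.cls r ⟨ha.trans hr1, hr2.trans_le hb⟩

variable [T3Space M] [ConnectedSpace M] [MeasurableSpace M] [BorelSpace M]

/-- the conclusion of `DIST` -/
def Sand (g : Met 4 M) (N : Nk M) (z : M) (η K : ℝ) : Prop :=
  (∀ x ∈ shell N.a N.b, (1 - 4 * η) * (‖x‖ - N.a) ≤ g.d z (N.Ψ x) ∧
    g.d z (N.Ψ x) ≤ (1 + 4 * η) * ‖x‖ + K * N.a) ∧
  (∀ p ∉ N.Om N.b, (1 - 4 * η) * (N.b - N.a) ≤ g.d z p) ∧ ∀ z' ∈ N.In, g.d z z' ≤ K * N.a

theorem Sand.facts {g : Met 4 M} {η K : ℝ} {z : M} (hS : Sand g N z η K) (hN : N.Top) (hr : 0 < r)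
    (hb : N.b = 8 * r) (hη : η ≤ 1 / 10000) (hη0 : 0 < η) (hK : 1 ≤ K) (ha : K * N.a ≤ η * r) :
    (∀ p ∈ N.In, g.d z p < r / 4) ∧ (∀ p ∉ N.Om N.b, 4 * r < g.d z p) ∧
      ∀ x ∈ shell N.a N.b, |g.d z (N.Ψ x) - ‖x‖| ≤ 33 * (η * r) := by
  obtain ⟨S1, S2, S3⟩ := hS
  have ha0 := hN.a_pos
  have hηr : η * r ≤ r / 10000 := by nlinarith
  have ha1 : N.a ≤ η * r := by nlinarith
  refine ⟨fun p hp => lt_of_le_of_lt (S3 p hp) (by linarith),
    fun p hp => lt_of_lt_of_le (by rw [hb]; nlinarith) (S2 p hp), fun x hx => ?_⟩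
  obtain ⟨c1, c2⟩ := S1 x hx
  have c3 : η * ‖x‖ ≤ η * (8 * r) := mul_le_mul_of_nonneg_left (hb ▸ hx.2.le) hη0.le
  have c4 : 0 ≤ η * N.a := by positivity
  exact abs_le.2 ⟨by nlinarith, by nlinarith⟩

theorem LocAt.mono {H : HC M} {t η η' : ℝ} {z : M} {β : M → ℝ} (h : LocAt H t z η r β)
    (hη : η ≤ η') : LocAt H t z η' r β := by
  refine ⟨h.s0, h.inn, h.out, fun x h1 h2 => ?_⟩
  obtain ⟨a, b, c, d⟩ := h.mid x h1 h2
  have : η * r ^ 2 ≤ η' * r ^ 2 := by gcongr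
  exact ⟨a.trans this, b.trans this, c.trans hη, d.trans hη⟩

theorem locAt_of_sand (F : Flow M) {t η K : ℝ} {z : M} (hN : N.Top) (hr : 0 < r)
    (hb : N.b = 8 * r) (hη : η ≤ 1 / 10000) (hη0 : 0 < η) (hK : 1 ≤ K) (ha : K * N.a ≤ η * r)
    (hS : Sand (F.m t) N z η K)
    (hJ : ∀ x ∈ shell N.a N.b, JG 1 ((F.m t).pm N.Ψ) x ‖x‖ η) :
    LocAt F.hc t z (12800 * η) r (radB N r) := by
  obtain ⟨hin, hout, hch⟩ := hS.facts hN hr hb hη hη0 hK ha
  change ∀ p ∈ N.In, F.hc.d t z p < r / 4 at hin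
  change ∀ p ∉ N.Om N.b, 4 * r < F.hc.d t z p at hout
  change ∀ x ∈ shell N.a N.b, |F.hc.d t z (N.Ψ x) - ‖x‖| ≤ 33 * (η * r) at hch
  have ha0 := hN.a_pos
  have hηr : η * r ≤ r / 10000 := by nlinarith
  have ha1 : N.a ≤ η * r := by nlinarith
  have hr2 : 0 < r ^ 2 := by positivity
  refine ⟨radB_sm hN hr (by linarith) (by linarith), fun p hp => ?_, fun p hp => ?_,
    fun p h1 h2 => ?_⟩
  · rcases cases_nk N p with h | ⟨x, hx, rfl⟩ | h
    · rw [radB, radF_in hN h]; linarith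
    · rw [radB, radF_chart hN hx]
      have c := (abs_le.1 (hch x hx)).1
      have : prof (‖x‖ ^ 2 / r ^ 2) ≤ 1 / 8 :=
        prof_le (by rw [div_le_iff₀ hr2]; nlinarith [norm_nonneg x])
      nlinarith
    · linarith [hout p h]
  · rcases cases_nk N p with h | ⟨x, hx, rfl⟩ | h
    · linarith [hin p h]
    · rw [radB, radF_chart hN hx]
      have c := (abs_le.1 (hch x hx)).2
      have : 8 ≤ prof (‖x‖ ^ 2 / r ^ 2) :=
        prof_ge (by rw [le_div_iff₀ hr2]; nlinarith [norm_nonneg x])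
      nlinarith
    · rw [radB, radF_out h]; linarith
  · rcases cases_nk N p with h | ⟨x, hx, rfl⟩ | h
    · linarith [hin p h]
    · obtain ⟨c1, c2⟩ := abs_le.1 (hch x hx)
      have d1 : 24 / 100 * r ≤ ‖x‖ := by linarith
      have d2 : ‖x‖ ≤ 41 / 10 * r := by linarith
      have d3 : ‖x‖ ^ 2 ≤ 17 * r ^ 2 := by nlinarith
      obtain ⟨e1, e2, e3, e4⟩ := radB_est hN hr (by linarith) (by linarith) (F.m t) hx
        (by nlinarith) (by nlinarith) (by linarith) (hJ x hx)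
      have p0 : 0 ≤ η * r ^ 2 := by positivity
      refine ⟨?_, ?_, e3.trans (by linarith), e4⟩
      · rw [e1, sq_sub_sq, abs_mul, abs_sub_comm]
        calc _ ≤ (9 * r) * (33 * (η * r)) :=
              mul_le_mul (abs_le.2 ⟨by linarith, by linarith⟩) (hch x hx) (abs_nonneg _)
                (by positivity)
          _ ≤ _ := by nlinarith
      · rw [e1]
        refine e2.trans ?_
        have : η * ‖x‖ ^ 2 ≤ η * (17 * r ^ 2) := by gcongr
        nlinarith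
    · linarith [hout p h]

end Crest.Agent.N207.Rad

end
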