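import Crest.Agent.N207.Rad.Touch

/-!
# Row 207, block P0 (helper89): sizes of 2-jets at one point, normalised sums
-/

set_option autoImplicit false
set_option linter.dupNamespace false
set_option linter.unusedSectionVars false
open Set MeasureTheory Filter Topology
open scoped ContDiff

noncomputable section

namespace Crest.Agent.N207.Rad

variable {M : Type*} [TopologicalSpace M] [CompactSpace M] [MeasurableSpace M] {H : HC M}

/-- value, gradient and Laplacian of `u` at `x` have size `c` at the scale `r` -/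
structure Sz (H : HC M) (t : ℝ) (x : M) (r : ℝ) (u : M → ℝ) (c : ℝ) : Prop where
  s0 : H.S0 u
  v : |u x| ≤ c
  g : √(H.gam t u u x) ≤ c / r
  l : |H.lap t u x| ≤ c / r ^ 2

variable {t r : ℝ} {x : M} {u v : M → ℝ} {c d : ℝ}

theorem Sz.nn (h : Sz H t x r u c) : 0 ≤ c := (abs_nonneg _).trans h.v

theorem Sz.mono (hr : 0 < r) (h : Sz H t x r u c) (hc : c ≤ d) : Sz H t x r u d :=
  ⟨h.s0, h.v.trans hc, h.g.trans (by gcongr), h.l.trans (by gcongr)⟩

theorem exists_sz (hr : 0 < r) (hu : H.S0 u) : ∃ c, Sz H t x r u c := by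
  refine ⟨|u x| + √(H.gam t u u x) * r + |H.lap t u x| * r ^ 2, hu, ?_, ?_, ?_⟩
  · have : 0 ≤ √(H.gam t u u x) * r + |H.lap t u x| * r ^ 2 := by positivity
    linarith
  · rw [le_div_iff₀ hr]
    have : 0 ≤ |u x| + |H.lap t u x| * r ^ 2 := by positivity
    linarith
  · rw [le_div_iff₀ (by positivity)]
    have : 0 ≤ |u x| + √(H.gam t u u x) * r := by positivity
    linarith

variable (A : H.Alg) (ht : t ∈ Ioo 0 H.T)
include A ht

theorem sqrt_gam_add (hu : H.S0 u) (hv : H.S0 v) :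
    √(H.gam t (fun y => u y + v y) (fun y => u y + v y) x) ≤
      √(H.gam t u u x) + √(H.gam t v v x) := by
  rw [Real.sqrt_le_left (by positivity), A.gam_add t ht hu hv (A.s0_add hu hv),
    A.gam_add' ht hu hv hu, A.gam_add' ht hu hv hv, A.gam_symm t ht hv hu]
  have h1 := (abs_le.1 (A.abs_gam_le ht hu hv x)).2
  nlinarith [Real.sq_sqrt (A.gam_nonneg t ht hu x), Real.sq_sqrt (A.gam_nonneg t ht hv x)]

theorem sqrt_gam_cmul (k : ℝ) (hu : H.S0 u) :
    √(H.gam t (fun y => k * u y) (fun y => k * u y) x) = |k| * √(H.gam t u u x) := by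
  rw [A.gam_cmul ht _ hu (A.s0_cmul _ hu), A.gam_cmul' ht _ hu hu, ← mul_assoc, ← sq,
    Real.sqrt_mul (sq_nonneg k), Real.sqrt_sq_eq_abs]

theorem sqrt_gam_mul (hu : H.S0 u) (hv : H.S0 v) :
    √(H.gam t (fun y => u y * v y) (fun y => u y * v y) x) ≤
      |u x| * √(H.gam t v v x) + |v x| * √(H.gam t u u x) := by
  have e : H.gam t (fun y => u y * v y) (fun y => u y * v y) x =
      H.gam t (fun y => u x * v y + v x * u y) (fun y => u x * v y + v x * u y) x := by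
    have hv' := A.s0_cmul (u x) hv
    have hu' := A.s0_cmul (v x) hu
    rw [A.gam_mul t ht hu hv (A.s0_mul hu hv), A.gam_mul' ht hu hv hu, A.gam_mul' ht hu hv hv,
      A.gam_add t ht hv' hu' (A.s0_add hv' hu'), A.gam_cmul ht _ hv (A.s0_add hv' hu'),
      A.gam_cmul ht _ hu (A.s0_add hv' hu'), A.gam_add' ht hv' hu' hv, A.gam_add' ht hv' hu' hu,
      A.gam_cmul' ht _ hv hv, A.gam_cmul' ht _ hu hv, A.gam_cmul' ht _ hv hu,
      A.gam_cmul' ht _ hu hu]
  rw [e, ← sqrt_gam_cmul A ht (u x) hv, ← sqrt_gam_cmul A ht (v x) hu]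
  exact sqrt_gam_add A ht (A.s0_cmul _ hv) (A.s0_cmul _ hu)

theorem sz_const (hr : 0 < r) (k : ℝ) : Sz H t x r (fun _ => k) |k| :=
  ⟨A.s0_const k, le_rfl, by rw [A.gam_const ht k (A.s0_const k), Real.sqrt_zero]; positivity,
    by rw [A.lap_const ht k, abs_zero]; positivity⟩

theorem sz_zero (hu : H.S0 u) (h : u =ᶠ[𝓝 x] fun _ => 0) : Sz H t x r u 0 := by
  obtain ⟨h1, h2⟩ := A.local_eq ht hu (A.s0_const 0) h
  refine ⟨hu, by rw [h.eq_of_nhds, abs_zero], ?_, ?_⟩
  · rw [h2 u hu, A.gam_const ht 0 hu, Real.sqrt_zero, zero_div]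
  · rw [h1, A.lap_const ht 0, abs_zero, zero_div]

theorem Sz.add (h : Sz H t x r u c) (h' : Sz H t x r v d) :
    Sz H t x r (fun y => u y + v y) (c + d) := by
  refine ⟨A.s0_add h.s0 h'.s0, (abs_add_le _ _).trans (add_le_add h.v h'.v), ?_, ?_⟩
  · rw [add_div]; exact (sqrt_gam_add A ht h.s0 h'.s0).trans (add_le_add h.g h'.g)
  · rw [add_div, A.lap_add t ht h.s0 h'.s0]
    exact (abs_add_le _ _).trans (add_le_add h.l h'.l)

theorem Sz.cmul (k : ℝ) (h : Sz H t x r u c) : Sz H t x r (fun y => k * u y) (|k| * c) := by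
  refine ⟨A.s0_cmul k h.s0, ?_, ?_, ?_⟩
  · rw [abs_mul]; exact mul_le_mul_of_nonneg_left h.v (abs_nonneg k)
  · rw [sqrt_gam_cmul A ht k h.s0, mul_div_assoc]
    exact mul_le_mul_of_nonneg_left h.g (abs_nonneg k)
  · rw [A.lap_cmul ht k h.s0, abs_mul, mul_div_assoc]
    exact mul_le_mul_of_nonneg_left h.l (abs_nonneg k)

theorem Sz.mul (hr : 0 < r) (h : Sz H t x r u c) (h' : Sz H t x r v d) :
    Sz H t x r (fun y => u y * v y) (4 * (c * d)) := by
  have hc := h.nn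
  have hd := h'.nn
  have hcd := mul_nonneg hc hd
  refine ⟨A.s0_mul h.s0 h'.s0, ?_, ?_, ?_⟩
  · rw [abs_mul]
    have := mul_le_mul h.v h'.v (abs_nonneg _) hc
    linarith
  · refine (sqrt_gam_mul A ht h.s0 h'.s0).trans ?_
    have a1 := mul_le_mul h.v h'.g (Real.sqrt_nonneg _) hc
    have a2 := mul_le_mul h'.v h.g (Real.sqrt_nonneg _) hd
    have a3 : c * (d / r) + d * (c / r) ≤ 4 * (c * d) / r := by
      rw [← mul_div_assoc, ← mul_div_assoc, ← add_div]; gcongr; linarith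
    linarith
  · rw [A.lap_mul t ht h.s0 h'.s0]
    have a1 := mul_le_mul h.v h'.l (abs_nonneg _) hc
    have a2 := mul_le_mul h'.v h.l (abs_nonneg _) hd
    have a3 := (A.abs_gam_le ht h.s0 h'.s0 x).trans
      (mul_le_mul h.g h'.g (Real.sqrt_nonneg _) (by positivity))
    have a4 : c * (d / r ^ 2) + d * (c / r ^ 2) + 2 * (c / r * (d / r)) = 4 * (c * d) / r ^ 2 := by
      field_simp; ring
    rw [← abs_mul] at a1 a2
    have a5 := abs_add_le (u x * H.lap t v x + v x * H.lap t u x) (2 * H.gam t u v x)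
    have a6 := abs_add_le (u x * H.lap t v x) (v x * H.lap t u x)
    rw [abs_mul 2, abs_two] at a5
    linarith

theorem Sz.comp (hr : 0 < r) {φ : ℝ → ℝ} {U : Set ℝ} (hU : IsOpen U) (hφ : ContDiffOn ℝ ∞ φ U)
    (hm : ∀ y, u y ∈ U) {K : ℝ} (h0 : |φ (u x)| ≤ K) (h1 : |deriv φ (u x)| ≤ K)
    (h2 : |deriv (deriv φ) (u x)| ≤ K) (h : Sz H t x r u c) :
    Sz H t x r (fun y => φ (u y)) (K * (1 + c + c ^ 2)) := by
  have hc := h.nn
  have hK : 0 ≤ K := (abs_nonneg _).trans h0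
  refine ⟨A.s0_comp hU hφ hm h.s0, h0.trans (by nlinarith [mul_nonneg hK hc, sq_nonneg c]), ?_, ?_⟩
  · rw [A.gam_comp2 ht hU hφ hm h.s0, Real.sqrt_mul (sq_nonneg _), Real.sqrt_sq_eq_abs]
    refine (mul_le_mul h1 h.g (Real.sqrt_nonneg _) hK).trans ?_
    rw [← mul_div_assoc]; gcongr; nlinarith [sq_nonneg c]
  · rw [A.lap_comp t ht hU hφ hm h.s0]
    have a0 := A.gam_nonneg t ht h.s0 x
    have a1 := mul_le_mul h1 h.l (abs_nonneg _) hK
    have a2 : H.gam t u u x ≤ c ^ 2 / r ^ 2 := by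
      rw [← div_pow, ← Real.sqrt_le_left (by positivity)]; exact h.g
    have a3 := mul_le_mul h2 a2 a0 hK
    have a4 : K * (c / r ^ 2) + K * (c ^ 2 / r ^ 2) ≤ K * (1 + c + c ^ 2) / r ^ 2 := by
      rw [← mul_div_assoc, ← mul_div_assoc, ← add_div]; gcongr; nlinarith
    have a5 := abs_add_le (deriv φ (u x) * H.lap t u x) (deriv (deriv φ) (u x) * H.gam t u u x)
    rw [abs_mul, abs_mul, abs_of_nonneg a0] at a5
    linarith

theorem Sz.inv (hr : 0 < r) (hp : ∀ y, 0 < u y) (h1 : 1 ≤ u x) (h : Sz H t x r u c) :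
    Sz H t x r (fun y => (u y)⁻¹) (2 * (1 + c + c ^ 2)) := by
  have hc : ContDiffOn ℝ ∞ (fun s : ℝ => s⁻¹) (Ioi 0) :=
    fun s hs => (contDiffAt_inv ℝ (ne_of_gt hs)).contDiffWithinAt
  have hx := hp x
  have hi : (u x)⁻¹ ≤ 1 := inv_le_one_of_one_le₀ h1
  have hi0 : 0 < (u x)⁻¹ := inv_pos.2 hx
  refine Sz.comp A ht hr isOpen_Ioi hc hp ?_ ?_ ?_ h
  · rw [abs_of_pos hi0]; linarith
  · rw [deriv_inv, abs_neg, ← inv_pow, abs_of_pos (by positivity)]; nlinarith
  · have e : deriv (fun s : ℝ => s⁻¹) = fun s => -(s ^ 2)⁻¹ := deriv_inv'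
    have d : HasDerivAt (fun s : ℝ => -(s ^ 2)⁻¹) (2 * (u x)⁻¹ ^ 3) (u x) := by
      have d0 := ((hasDerivAt_pow 2 (u x)).inv (by positivity)).neg
      refine d0.congr_deriv ?_
      have := hx.ne'
      simp only [Nat.cast_ofNat, Nat.add_one_sub_one, pow_one]
      field_simp
    rw [e, d.deriv, abs_of_pos (by positivity)]
    have : (u x)⁻¹ ^ 3 ≤ 1 := pow_le_one₀ hi0.le hi
    linarith

theorem sz_sum {ι : Type*} (hr : 0 < r) (s : Finset ι) {f : ι → M → ℝ} {k : ι → ℝ}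
    (h : ∀ i ∈ s, Sz H t x r (f i) (k i)) :
    Sz H t x r (fun y => ∑ i ∈ s, f i y) (∑ i ∈ s, k i) := by
  classical
  induction s using Finset.induction_on with
  | empty => simpa using sz_const A ht hr 0
  | insert i s hi ih =>
    simp only [Finset.sum_insert hi]
    exact (h i (Finset.mem_insert_self _ _)).add A ht
      (ih fun j hj => h j (Finset.mem_insert_of_mem hj))

/-- the normalised sum is close to the reference function -/
theorem sz_glue {ι : Type*} (hr : 0 < r) (s : Finset ι) (al : ι → Prop) [DecidablePred al]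
    {p β : ι → M → ℝ} {β0 : M → ℝ} {N L e : ℝ} (hN : ((s.filter al).card : ℝ) ≤ N) (hL : 0 ≤ L)
    (he : 0 ≤ e) (hβ : ∀ i ∈ s, H.S0 (β i)) (hβ0 : H.S0 β0)
    (hd : ∀ i ∈ s, ¬ al i → Sz H t x r (p i) 0) (ha : ∀ i ∈ s, al i → Sz H t x r (p i) L)
    (hb : ∀ i ∈ s, al i → Sz H t x r (fun y => β i y - β0 y) e)
    (hW : ∀ y, 0 < ∑ i ∈ s, p i y) (hW1 : 1 ≤ ∑ i ∈ s, p i x) :
    Sz H t x r (fun y => (∑ i ∈ s, p i y * β i y) / (∑ i ∈ s, p i y) - β0 y)
      (32 * (N * L * (1 + N * L + (N * L) ^ 2)) * e) := by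
  have hs : ∀ k : ℝ, 0 ≤ k → ∑ i ∈ s, (if al i then k else 0) ≤ N * k := fun k hk => by
    rw [← Finset.sum_filter, Finset.sum_const, nsmul_eq_mul]
    exact mul_le_mul_of_nonneg_right hN hk
  have h1 : Sz H t x r (fun y => ∑ i ∈ s, p i y) (N * L) :=
    (sz_sum A ht hr s (k := fun i => if al i then L else 0) fun i hi => by
      by_cases h : al i
      · simpa [h] using ha i hi h
      · simpa [h] using hd i hi h).mono hr (hs L hL)
  have h2 : Sz H t x r (fun y => ∑ i ∈ s, p i y * (β i y - β0 y)) (N * (4 * (L * e))) :=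
    (sz_sum A ht hr s (k := fun i => if al i then 4 * (L * e) else 0) fun i hi => by
      by_cases h : al i
      · simpa [h] using (ha i hi h).mul A ht hr (hb i hi h)
      · obtain ⟨c, hc⟩ := exists_sz (t := t) (x := x) hr (A.s0_sub (hβ i hi) hβ0)
        simpa [h] using (hd i hi h).mul A ht hr hc).mono hr (hs _ (by positivity))
  have h3 := h2.mul A ht hr (h1.inv A ht hr hW hW1)
  have e1 : (fun y => (∑ i ∈ s, p i y * β i y) / (∑ i ∈ s, p i y) - β0 y) =
      fun y => (∑ i ∈ s, p i y * (β i y - β0 y)) * (∑ i ∈ s, p i y)⁻¹ := by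
    funext y
    have := (hW y).ne'
    simp only [mul_sub, Finset.sum_sub_distrib, ← Finset.sum_mul]
    field_simp
  rw [e1]
  exact h3.mono hr (le_of_eq (by ring))

end Crest.Agent.N207.Rad

end
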