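import Crest.Agent.N207.C.Lip
import Crest.Agent.N207.E.Cut

/-!
# Row 207, block P0 (helper89): a function with small values and small Hessian has small gradient
-/

set_option autoImplicit false
set_option linter.dupNamespace false
set_option linter.unusedSectionVars false
open Set MeasureTheory Filter Topology
open scoped ContDiff

noncomputable section

namespace Crest.Agent.N207.Rad

variable {M : Type*} [TopologicalSpace M] [CompactSpace M] [MeasurableSpace M] {H : HC M}

/-- a function with gradient at most `k` on a ball is `k`-Lipschitz from the centre -/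
theorem lip_k (A : H.Alg) (D : H.Dist) {t : ℝ} (ht : t ∈ Ioo 0 H.T) {u : M → ℝ} (hu : H.S0 u)
    {x y : M} {r k : ℝ} (hk : 0 < k) (h : ∀ z, H.d t x z < r → H.gam t u u z ≤ k ^ 2)
    (hy : H.d t x y < r) : |u y - u x| ≤ k * H.d t x y := by
  have h1 := D.lip t ht (u := fun z => k⁻¹ * u z) (x := x) (y := y) (r := r) (A.s0_cmul _ hu)
    (fun z hz => by
      rw [A.gam_cmul ht _ hu (A.s0_cmul _ hu), A.gam_cmul' ht _ hu hu]
      have := h z hz
      calc k⁻¹ * (k⁻¹ * H.gam t u u z) ≤ k⁻¹ * (k⁻¹ * k ^ 2) := by gcongr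
        _ = 1 := by field_simp) hy
  rw [← mul_sub, abs_mul, abs_of_pos (inv_pos.2 hk), inv_mul_le_iff₀ hk] at h1
  exact h1

/-- the norm of the gradient is Lipschitz -/
theorem grad_lip (A : H.Alg) (E : H.Evo) (D : H.Dist) {t : ℝ} (ht : t ∈ Ioo 0 H.T) {u : M → ℝ}
    (hu : H.S0 u) {x y : M} {r k : ℝ} (hk : 0 < k)
    (h : ∀ z, H.d t x z < r → H.hh t u z ≤ k ^ 2) (hy : H.d t x y < r) :
    √(H.gam t u u x) ≤ √(H.gam t u u y) + k * H.d t x y := by
  refine le_of_forall_pos_le_add fun e he => ?_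
  have hG := A.s0_gam ht hu hu
  have hp : ∀ z, 0 < H.gam t u u z + e ^ 2 := fun z => by
    have := A.gam_nonneg t ht hu z; positivity
  have hS : H.S0 fun z => H.gam t u u z + e ^ 2 := A.s0_add hG (A.s0_const _)
  have h1 := lip_k A D ht (A.s0_sqrt hS hp) (x := x) (y := y) (r := r) hk (fun z hz => by
    have hc : ContDiffOn ℝ ∞ (fun s : ℝ => √s) (Ioi 0) :=
      fun s hs => (Real.contDiffAt_sqrt (ne_of_gt hs)).contDiffWithinAt
    rw [A.gam_comp2 ht isOpen_Ioi hc hp hS z, (Real.hasDerivAt_sqrt (hp z).ne').deriv,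
      A.gam_add t ht hG (A.s0_const _) hS, A.gam_const ht _ hS, add_zero,
      A.gam_add' ht hG (A.s0_const _) hG, A.gam_const' ht _ hG, add_zero]
    have h2 := E.kato_gam t ht hu z
    have h3 := h z hz
    have h4 := A.gam_nonneg t ht hu z
    have h5 := E.hh_nonneg t ht hu z
    rw [div_pow, one_pow, mul_pow, Real.sq_sqrt (hp z).le, div_mul_eq_mul_div, one_mul,
      div_le_iff₀ (by have := hp z; positivity)]
    nlinarith [mul_le_mul_of_nonneg_left h3 h4, sq_nonneg (k * e)]) hy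
  have h2 : √(H.gam t u u x) ≤ √(H.gam t u u x + e ^ 2) :=
    Real.sqrt_le_sqrt (by nlinarith [sq_nonneg e])
  have h3 : √(H.gam t u u y + e ^ 2) ≤ √(H.gam t u u y) + e := by
    have h4 := A.gam_nonneg t ht hu y
    rw [Real.sqrt_le_left (by positivity)]
    nlinarith [Real.sq_sqrt h4, Real.sqrt_nonneg (H.gam t u u y)]
  have := (abs_le.1 h1).1
  linarith

/-- interpolation: small values and small Hessian give a small gradient -/
theorem grad_small : ∃ C : ℝ, 0 < C ∧ ∀ {M : Type*} [TopologicalSpace M] [CompactSpace M]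
    [MeasurableSpace M] {H : HC M}, H.Alg → H.Evo → H.Dist → ∀ {t : ℝ}, t ∈ Ioo 0 H.T →
    ∀ {u : M → ℝ}, H.S0 u → ∀ {x : M} {r m k : ℝ}, 0 < r → 0 < m → 0 < k →
    (∀ y, H.d t x y < r → |u y| ≤ m) → (∀ y, H.d t x y < r → H.hh t u y ≤ k ^ 2) →
    √(H.gam t u u x) ≤ C * m / r + k * r := by
  obtain ⟨K, hK, hK1, -⟩ := E.zeta_bounds
  refine ⟨12 * K + 1, by positivity, ?_⟩
  intro M _ _ _ H A Ev D t ht u hu x r m k hr hm hk h0 h2
  obtain ⟨v, hv, hv1, hv2⟩ := D.approx t ht x (r / 10) (by positivity)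
  have hv' : H.S0 fun y => (4 / r) * v y := A.s0_cmul _ hv
  set p : M → ℝ := fun y => E.zeta ((4 / r) * v y) with hp
  have hpS : H.S0 p := A.s0_compU E.zeta_cd hv'
  set F : M → ℝ := fun y => u y + 3 * m * p y with hF
  have hFS : H.S0 F := A.s0_add hu (A.s0_cmul _ hpS)
  have hdc := D.cont t ht x
  have hKc : IsCompact {y | H.d t x y ≤ 9 / 10 * r} :=
    (isClosed_le hdc continuous_const).isCompact
  have hx : x ∈ {y | H.d t x y ≤ 9 / 10 * r} := by
    show H.d t x x ≤ _; rw [D.self t ht]; positivity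
  obtain ⟨y, hy, hmax⟩ := hKc.exists_isMaxOn ⟨x, hx⟩ (A.s0_cont hFS).continuousOn
  have hy' : H.d t x y ≤ 9 / 10 * r := hy
  have hyr : H.d t x y < r := by linarith
  have hpx : p x = 1 := E.zeta_one (by
    have := (abs_le.1 (hv2 x)).2
    rw [D.self t ht] at this
    rw [div_mul_eq_mul_div, div_le_one hr]; linarith)
  have hFx : F x ≤ F y := hmax hx
  have hpy : p y ≠ 0 := fun e => by
    have a1 := (abs_le.1 (h0 x (by rw [D.self t ht]; exact hr))).1
    have a2 := (abs_le.1 (h0 y hyr)).2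
    simp only [hF, hpx, e] at hFx
    linarith
  have hy2 : H.d t x y < 9 / 10 * r := by
    have a1 : 4 / r * v y < 2 := lt_of_not_ge fun e => hpy (E.zeta_zero e)
    rw [div_mul_eq_mul_div, div_lt_iff₀ hr] at a1
    have := (abs_le.1 (hv2 y)).1
    linarith
  have hloc : IsLocalMax F y := by
    filter_upwards [hdc.continuousAt.eventually (gt_mem_nhds hy2)] with z hz
    exact hmax (show H.d t x z ≤ _ from hz.le)
  have hg := (A.at_max t ht hFS hloc).2
  have e1 := A.gam_eq_zero ht hFS hu hg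
  have e2 := A.gam_eq_zero ht hFS hpS hg
  rw [hF, A.gam_add t ht hu (A.s0_cmul _ hpS) hu, A.gam_cmul ht _ hpS hu] at e1
  rw [hF, A.gam_add t ht hu (A.s0_cmul _ hpS) hpS, A.gam_cmul ht _ hpS hpS,
    A.gam_symm t ht hu hpS] at e2
  have e3 : H.gam t p p y ≤ (K * (4 / r)) ^ 2 := by
    rw [hp, A.gam_compU2 ht E.zeta_cd hv', A.gam_cmul ht _ hv hv', A.gam_cmul' ht _ hv hv, mul_pow]
    have b1 : deriv E.zeta (4 / r * v y) ^ 2 ≤ K ^ 2 := sq_le_sq' (abs_le.1 (hK1 _)).1 (abs_le.1 (hK1 _)).2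
    have b2 : 4 / r * (4 / r * H.gam t v v y) ≤ (4 / r) ^ 2 := by
      have := hv1 y
      calc 4 / r * (4 / r * H.gam t v v y) ≤ 4 / r * (4 / r * 1) := by gcongr
        _ = _ := by ring
    have b3 : 0 ≤ 4 / r * (4 / r * H.gam t v v y) := by
      have := A.gam_nonneg t ht hv y; positivity
    exact mul_le_mul b1 b2 b3 (sq_nonneg _)
  have e4 : H.gam t u u y = (3 * m) ^ 2 * H.gam t p p y := by
    have : H.gam t p u y = -(3 * m * H.gam t p p y) := by linarith
    rw [this] at e1; linarith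
  have e5 : √(H.gam t u u y) ≤ 3 * m * (K * (4 / r)) := by
    rw [Real.sqrt_le_left (by positivity), e4, mul_pow (3 * m)]
    gcongr
  have e6 := grad_lip A Ev D ht hu hk h2 hyr
  have e7 : k * H.d t x y ≤ k * r := by gcongr
  have e8 : 3 * m * (K * (4 / r)) ≤ (12 * K + 1) * m / r := by
    rw [le_div_iff₀ hr]
    have : 3 * m * (K * (4 / r)) * r = 12 * K * m := by field_simp; ring
    rw [this]; nlinarith
  linarith

end Crest.Agent.N207.Rad

end
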